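import Vale.Agent.P281Z.Nt.Sk
import Vale.Agent.P281Z.Mf.Loc
import Vale.Agent.P281Z.Rs.Comp
import Vale.Agent.P277Z.Val.Mon

/-!
# P281, block NEAT: smooth hypersurfaces
-/

open scoped Manifold ContDiff Topology
open Set Filter
open Vale.Agent.P272.K (Cm Chart At)
open Vale.Agent.P277Z (Hol at_chart)
open Vale.Agent.P277Z.Slc (LEq Snc Ind dd)

set_option linter.unusedSectionVars false

noncomputable section

namespace Vale.Agent.P281Z.Nt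

namespace Hp

variable {n : ℕ} {X : Type} [TopologicalSpace X] [ChartedSpace (Cm n) X]
  [IsManifold 𝓘(ℂ, Cm n) ω X] {x : X} {D : Set X} {ζ b : X → ℂ}

/-- coordinates centred at `x`, some of which are given -/
theorem exists_crd {α : Type} [Fintype α] {h : α → X → ℂ} (hi : Ind n h x) (h0 : ∀ a, h a x = 0)
    {U : Set X} (hU : U ∈ 𝓝 x) : ∃ (Θ : Chart n X) (ι : α ↪ Fin n), Co n Θ ∧ x ∈ Θ.source ∧
      Θ.source ⊆ U ∧ Θ x = 0 ∧ ∀ y ∈ Θ.source, ∀ a, Θ y (ι a) = h a y := by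
  have hd := Nat.add_sub_cancel' (ind_le hi)
  obtain ⟨Θ, h1, h2, h3, h4⟩ := exists_co hi hd hU
  let σ : α ⊕ Fin (n - Fintype.card α) ≃ Fin n := Fintype.equivFinOfCardEq (by simpa using hd)
  let L : ((α → ℂ) × Cm (n - Fintype.card α)) ≃L[ℂ] Cm n :=
    ((LinearEquiv.sumArrowLequivProdArrow _ _ ℂ ℂ).symm.trans
      (LinearEquiv.funCongrLeft ℂ ℂ σ.symm)).toContinuousLinearEquiv
  have hL : ∀ v a, L v (σ (.inl a)) = v.1 a := fun v a => by simp [L]; rfl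
  refine ⟨Θ.transHomeomorph (L.toHomeomorph.trans (Homeomorph.subRight (L (Θ x)))),
    ⟨fun a => σ (.inl a), fun a a' e => Sum.inl_injective (σ.injective e)⟩, ⟨fun y hy => ?_,
    fun v hv e he => ?_⟩, h2, h3, sub_self _, fun y hy a => ?_⟩
  · exact (h1.an y hy).cmp (G := fun v => L v - L (Θ x))
      ((L.toContinuousLinearMap.analyticAt _).sub analyticAt_const)
  · exact (h1.inv _ hv e he).fun_comp (f := fun v => L.symm (v + L (Θ x)))
      ((L.symm.toContinuousLinearMap.analyticAt _).fun_comp (analyticAt_id.add analyticAt_const))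
  · change L (Θ y) (σ (.inl a)) - L (Θ x) (σ (.inl a)) = _
    rw [hL, hL, h4 y hy, h4 x h2]; simp [h0]

theorem ind_one (h : LEq n D x ζ) (hx : x ∈ D) : Ind n (fun _ : Unit => ζ) x :=
  ⟨fun _ => h.hol, fun e he => linearIndependent_unique_iff.2 ((h.2 e he).2 (h.mem.2 hx))⟩

theorem co_hol {Θ : Chart n X} (h : Co n Θ) (hx : x ∈ Θ.source) {u : Cm n → ℂ}
    (hu : AnalyticAt ℂ u (Θ x)) : Hol n (fun y => u (Θ y)) x := (h.an x hx).cmp hu

theorem co_an {Θ : Chart n X} (h : Co n Θ) (hx : x ∈ Θ.source) (hb : Hol n b x) :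
    AnalyticAt ℂ (fun w => b (Θ.symm w)) (Θ x) :=
  h.an_hol (Θ.map_source hx) (by rwa [Θ.left_inv hx])

theorem ev_iff {Θ : Chart n X} (hx : x ∈ Θ.source) {P : X → Prop} :
    (∀ᶠ w in 𝓝 (Θ x), P (Θ.symm w)) ↔ ∀ᶠ y in 𝓝 x, P y :=
  ⟨fun h => by
    filter_upwards [(Θ.continuousAt hx).eventually h, Θ.eventually_left_inverse hx] with y a c
      using c ▸ a, fun h => (Θ.tendsto_symm hx).eventually h⟩

theorem fr_iff {Θ : Chart n X} (hx : x ∈ Θ.source) {P : X → Prop} :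
    (∃ᶠ w in 𝓝 (Θ x), P (Θ.symm w)) ↔ ∃ᶠ y in 𝓝 x, P y :=
  not_congr (ev_iff hx (P := fun y => ¬ P y))

theorem div (h : LEq n D x ζ) (hb : Hol n b x) (hz : ∀ᶠ y in 𝓝 x, y ∈ D → b y = 0) :
    ∃ c, Hol n c x ∧ ∀ᶠ y in 𝓝 x, b y = c y * ζ y := by
  by_cases h0 : ζ x = 0
  · have he := at_chart (n := n) x
    have hd := (h.2 _ he).2 h0
    obtain ⟨m, hm⟩ : ∃ m, Module.finrank ℂ (Cm n) = m + 1 := by
      refine Nat.exists_eq_succ_of_ne_zero fun h1 => hd ?_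
      have := Module.finrank_zero_iff.1 h1
      exact Subsingleton.elim _ _
    obtain ⟨U, h1, h3⟩ := P277.H762.exists_div hm (h.2 _ he).1 hd (by rwa [he.left_inv]) (hb _ he)
      ((at_ev he (h.1.and hz)).mono fun z hz h4 => hz.2 (hz.1.1 h4))
    refine ⟨_, co_hol (co_chart he.1) he.2 h1, (ev_iff he.2).1 ?_⟩
    filter_upwards [h3, P277Z.At.right he] with z h4 hz
    rw [hz, h4, mul_comm]
  · refine ⟨_, hb.div h.hol h0, (h.hol.ne_near h0).mono fun y hy => ?_⟩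
    rw [div_mul_cancel₀ _ hy]

theorem plane {u : Cm n → ℂ} {i : Fin n} (hu : AnalyticAt ℂ u 0)
    (h : ∃ᶠ w in 𝓝 (0 : Cm n), w i = 0 ∧ u w ≠ 0) :
    ∀ᶠ w in 𝓝 (0 : Cm n), w i = 0 → ∃ᶠ z in 𝓝 w, z i = 0 ∧ u z ≠ 0 := by
  classical
  have hP : ∀ w : Cm n, AnalyticAt ℂ (fun z : Cm n => Function.update z i 0) w := fun w =>
    analyticAt_pi_iff.2 fun j => by
      by_cases hj : j = i
      · subst hj
        simpa using analyticAt_const
      · simpa [hj] using P277Z.Val.an_coord j w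
  have h1 : AnalyticAt ℂ (fun z => u (Function.update z i 0)) 0 :=
    AnalyticAt.fun_comp (g := u) (by simpa using hu) (hP 0)
  obtain ⟨r, hr, hb⟩ := Metric.eventually_nhds_iff_ball.1 h1.eventually_analyticAt
  filter_upwards [Metric.ball_mem_nhds 0 hr] with w hw h0
  have h2 : ∃ᶠ z in 𝓝 w, u (Function.update z i 0) ≠ 0 := fun c => by
    have h3 := AnalyticOnNhd.eqOn_zero_of_preconnected_of_eventuallyEq_zero (𝕜 := ℂ) hb
      (convex_ball _ _).isPreconnected hw (c.mono fun _ => not_not.1)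
    obtain ⟨z, z1, z2⟩ := (h.and_eventually (Metric.ball_mem_nhds 0 hr)).exists
    have h4 := h3 z2
    simp only [← z1.1, Function.update_eq_self] at h4
    exact z1.2 h4
  have h3 : Tendsto (fun z : Cm n => Function.update z i 0) (𝓝 w) (𝓝 w) := by
    have := (hP w).continuousAt.tendsto
    rwa [← h0, Function.update_eq_self, h0] at this
  exact h3.frequently (h2.mono fun z hz => ⟨Function.update_self .., hz⟩)

/-- coordinates for a hypersurface -/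
theorem crd_one (h : LEq n D x ζ) (hx : x ∈ D) : ∃ (Θ : Chart n X) (i : Fin n), Co n Θ ∧
    x ∈ Θ.source ∧ Θ x = 0 ∧ ∀ w ∈ Θ.target, ζ (Θ.symm w) = w i ∧ (Θ.symm w ∈ D ↔ w i = 0) := by
  obtain ⟨Θ, ι, h1, h2, h3, h4, h5⟩ := exists_crd (ind_one h hx) (fun _ => h.mem.2 hx) h.1
  refine ⟨Θ, ι (), h1, h2, h4, fun w hw => ?_⟩
  have k := h5 _ (Θ.map_target hw) ()
  rw [Θ.right_inv hw] at k
  exact ⟨k.symm, k ▸ (h3 (Θ.map_target hw)).symm⟩

/-- the local identity theorem -/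
theorem loc_id (h : LEq n D x ζ) (hb : Hol n b x) (hf : ∃ᶠ y in 𝓝 x, y ∈ D ∧ b y ≠ 0)
    (hx : x ∈ D) : ∀ᶠ y in 𝓝 x, y ∈ D → ∃ᶠ z in 𝓝 y, z ∈ D ∧ b z ≠ 0 := by
  obtain ⟨Θ, i, h1, h2, h3, h4⟩ := crd_one h hx
  have hT := Θ.open_target.mem_nhds (Θ.map_source h2)
  have k := plane (i := i) (h3 ▸ co_an h1 h2 hb) (h3 ▸ (((fr_iff h2).2 hf).and_eventually hT).mono
    fun w hw => ⟨(h4 w hw.2).2.1 hw.1.1, hw.1.2⟩)
  refine (ev_iff h2).1 ?_
  filter_upwards [h3 ▸ k, hT] with w a c d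
  refine (fr_iff (Θ.map_target c)).1 ?_
  rw [Θ.right_inv c]
  exact ((a ((h4 w c).2.1 d)).and_eventually (Θ.open_target.mem_nhds c)).mono fun z hz =>
    ⟨(h4 z hz.2).2.2 hz.1.1, hz.1.2⟩

theorem idh {T : Set X} (hc : IsPreconnected D) (hD : Hy n D) (hT : An n T) (hx : x ∈ D)
    (h : ∀ᶠ y in 𝓝 x, y ∈ D → y ∈ T) : D ⊆ T := by
  set W : Set X := {y | ∀ᶠ z in 𝓝 y, z ∈ D → z ∈ T}
  intro y hy
  by_contra hy'
  have key : ∀ y ∈ D, y ∉ W → ∀ᶠ z in 𝓝 y, z ∈ D → z ∉ W := fun y hy hW => by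
    obtain ⟨k, g, h1, h2⟩ := hT y
    obtain ⟨ζ, hζ⟩ := hD y
    obtain ⟨i, hi⟩ : ∃ i, ∃ᶠ z in 𝓝 y, z ∈ D ∧ g i z ≠ 0 := by
      by_contra! c
      refine hW ?_
      filter_upwards [eventually_all.2 c, h2] with z a b d using b.2 fun i => a i d
    filter_upwards [loc_id hζ (h1 i) hi hy, h2.eventually_nhds] with z a b d e
    obtain ⟨w, w1, w2, w3⟩ := ((a d).and_eventually (b.and e)).exists
    exact w1.2 (w2.1 (w3 w1.1) i)
  obtain ⟨z, z1, z2, z3⟩ := hc W {y | ∀ᶠ z in 𝓝 y, z ∈ D → z ∉ W} isOpen_setOfPred_eventually_nhds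
    isOpen_setOfPred_eventually_nhds (fun z hz => (em (z ∈ W)).imp id (key z hz)) ⟨x, hx, h⟩
    ⟨y, hy, key y hy fun c => hy' (c.self_of_nhds hy)⟩
  exact z3.self_of_nhds z1 z2

theorem genp {κ : Type} [Fintype κ] {G : κ → Set X} (hG : Snc n G) {l : κ} (hx : x ∈ G l) :
    ∃ᶠ y in 𝓝 x, y ∈ G l ∧ ∀ k, k ≠ l → y ∉ G k := by
  classical
  obtain ⟨ζ, h1, h2⟩ := hG x
  have ht : Tendsto (fun (s : ℝ) (b : {k // x ∈ G k}) => if b.1 = l then 0 else (s : ℂ)) (𝓝[>] 0)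
      (𝓝 0) := by
    refine tendsto_pi_nhds.2 fun b => tendsto_nhdsWithin_of_tendsto_nhds ?_
    split_ifs
    · exact tendsto_const_nhds
    · simpa using Complex.continuous_ofReal.tendsto 0
  obtain ⟨z, hz1, hz2⟩ := Rs.Cmp.curve h2 (fun k => (h1 k).mem.2 k.2) ht
  have h3 : ∀ᶠ y in 𝓝 x, ∀ k, x ∉ G k → y ∉ G k := eventually_all.2 fun k => by
    by_cases hk : x ∈ G k
    · exact .of_forall fun _ h => absurd hk h
    · exact ((h1 k).not_mem_near hk).mono fun _ h _ => h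
  refine hz1.frequently (Eventually.frequently ?_)
  filter_upwards [hz2, hz1.eventually h3, hz1.eventually (eventually_all.2 fun k => (h1 k).1),
    self_mem_nhdsWithin] with s a1 a2 a3 a4
  refine ⟨(a3 l).1 ((a1 ⟨l, hx⟩).trans (if_pos rfl)), fun k hk c => ?_⟩
  have h4 := (a1 ⟨k, not_not.1 fun d => a2 k d c⟩).symm.trans ((a3 k).2 c)
  exact (ne_of_gt a4 : s ≠ 0) (by simpa [hk] using h4)

theorem ord (h : LEq n D x ζ) (hb : Hol n b x) (h0 : ¬ ∀ᶠ y in 𝓝 x, b y = 0) :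
    ∃ j : ℕ, ∀ᶠ y in 𝓝 x, y ∈ D → ¬ ∃ C : ℝ, ∀ᶠ z in 𝓝 y, ‖b z‖ ≤ C * ‖ζ z‖ ^ j := by
  by_cases hx : x ∈ D
  swap
  · exact ⟨0, (h.not_mem_near hx).mono fun _ a c => absurd c a⟩
  obtain ⟨Θ, i, h1, h2, h3, h4⟩ := crd_one h hx
  obtain ⟨m, rfl⟩ := Nat.exists_eq_succ_of_ne_zero i.pos.ne'
  obtain ⟨g, u, k1, k2, k3⟩ := P277Z.Val.exists_div_coord (h3 ▸ co_an h1 h2 hb)
    (h3 ▸ (fr_iff h2 (P := fun y => b y ≠ 0)).2 (not_eventually.1 h0)) i
  refine ⟨g + 1, (ev_iff h2).1 ?_⟩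
  rw [h3]
  filter_upwards [plane k1 k3, k2.eventually_nhds, k1.eventually_analyticAt.eventually_nhds,
    h3 ▸ Θ.open_target.mem_nhds (Θ.map_source h2)] with w a1 a2 a3 a4 a5 ⟨C, hC⟩
  have a6 := (ev_iff (Θ.map_target a4)).2 hC
  rw [Θ.right_inv a4] at a6
  obtain ⟨z, ⟨z1, z2⟩, z3, z4⟩ := ((a1 ((h4 w a4).2.1 a5)).and_eventually
    ((a2.and (a6.and (Θ.open_target.mem_nhds a4))).eventually_nhds.and a3)).exists
  have h5 : ∀ᶠ t in 𝓝 z, C * ‖t i‖ < ‖u t‖ :=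
    (continuousAt_const.mul (continuous_apply i).continuousAt.norm).eventually_lt
      z4.continuousAt.norm (by simpa [z1] using z2)
  have h6 : ∃ᶠ t in 𝓝 z, t i ≠ 0 :=
    (P277Z.Val.freq_strat ∅ (by simp)).mono fun t ht e => (ht i).1 e
  obtain ⟨t, t1, ⟨t2, t3, t4⟩, t5⟩ := (h6.and_eventually (z3.and h5)).exists
  rw [t2, (h4 t t4).1, norm_mul, norm_pow, pow_succ, mul_left_comm] at t3
  exact t5.not_ge (le_of_mul_le_mul_left t3 (pow_pos (norm_pos_iff.2 t1) g))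

theorem cov {Y κ : Type} [TopologicalSpace Y] [Fintype κ] {D : Set Y} {T : κ → Set Y} {x : Y}
    (hT : ∀ l, IsClosed (T l)) (hx : x ∈ D) (h : ∀ᶠ y in 𝓝 x, y ∈ D → ∃ l, y ∈ T l) :
    ∃ᶠ y in 𝓝 x, y ∈ D ∧ ∃ l, ∀ᶠ z in 𝓝 y, z ∈ D → z ∈ T l := by
  classical
  intro c
  obtain ⟨O, h1, h2, h3⟩ := eventually_nhds_iff.1 (c.and h)
  have key : ∀ s : Finset κ, ∃ y ∈ O, y ∈ D ∧ ∀ l ∈ s, y ∉ T l := fun s => by
    induction s using Finset.induction_on with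
    | empty => exact ⟨x, h3, hx, by simp⟩
    | insert k s _ ih =>
      obtain ⟨y, y1, y2, y3⟩ := ih
      have h4 : ∃ᶠ z in 𝓝 y, ¬ (z ∈ D → z ∈ T k) :=
        not_eventually.1 fun d => (h1 y y1).1 ⟨y2, k, d⟩
      obtain ⟨z, z1, z2, z3⟩ := (h4.and_eventually ((h2.eventually_mem y1).and
        ((eventually_all_finset s).2 fun l hl => (hT l).isOpen_compl.mem_nhds (y3 l hl)))).exists
      exact ⟨z, z2, (Classical.not_imp.1 z1).1,
        Finset.forall_mem_insert _ _ _ |>.2 ⟨(Classical.not_imp.1 z1).2, z3⟩⟩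
  obtain ⟨y, y1, y2, y3⟩ := key Finset.univ
  obtain ⟨l, hl⟩ := (h1 y y1).2 y2
  exact y3 l (Finset.mem_univ l) hl

variable [T2Space X] [SecondCountableTopology X]

open Rs.Cmp in
theorem mon {κ : Type} [Fintype κ] {G : κ → Set X} {ζ : κ → X → ℂ} (hG : Snc n G)
    (hζ : ∀ l, LEq n (G l) x (ζ l)) (hb : Hol n b x) (h : ∀ᶠ y in 𝓝 x, y ∈ off G → b y ≠ 0) :
    ∃ (a : κ → ℕ) (c : X → ℂ), Hol n c x ∧ c x ≠ 0 ∧ ∀ᶠ y in 𝓝 x, b y = c y * ∏ l, ζ l y ^ a l := by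
  classical
  by_cases hx : x ∈ off G
  · exact ⟨0, b, hb, h.self_of_nhds hx, by simp⟩
  obtain ⟨l₀, hl₀⟩ := not_forall.1 hx
  obtain ⟨ξ, h1, h2⟩ := hG x
  have h3 : ∀ᶠ y in 𝓝 x, ∀ k, (ξ k y = 0 ↔ y ∈ G k) ∧ (x ∉ G k → y ∉ G k) :=
    eventually_all.2 fun k => (h1 k).1.and (by
      by_cases hk : x ∈ G k
      · exact .of_forall fun _ h => absurd hk h
      · exact ((h1 k).not_mem_near hk).mono fun _ h _ => h)
  obtain ⟨Θ, ι, k1, k2, k3, k4, k5⟩ := exists_crd h2 (fun k => (h1 k).mem.2 k.2) h3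
  obtain ⟨m, rfl⟩ := Nat.exists_eq_succ_of_ne_zero (ι ⟨l₀, not_not.1 hl₀⟩).pos.ne'
  obtain ⟨g, u, a1, a2, a3⟩ := P277Z.Val.exists_mon0 (fun l => some (ι l)) (k4 ▸ co_an k1 k2 hb)
    (k4 ▸ by
      filter_upwards [(ev_iff k2).2 h, Θ.open_target.mem_nhds (Θ.map_source k2)] with w b1 b2 b3
      refine b1 fun k c => ?_
      have hk : x ∈ G k := not_not.1 fun d => (k3 (Θ.map_target b2) k).2 d c
      have e := k5 _ (Θ.map_target b2) ⟨k, hk⟩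
      rw [Θ.right_inv b2] at e
      exact b3 ⟨k, hk⟩ _ rfl (e.trans ((k3 (Θ.map_target b2) k).1.2 c)))
  let a : κ → ℕ := fun l => if hl : x ∈ G l then g ⟨l, hl⟩ else 0
  have e1 : Eqv (m + 1) x b fun y => ∏ l : {l // x ∈ G l}, ξ l y ^ a l := by
    refine ⟨_, co_hol k1 k2 (k4.symm ▸ a1), by rwa [k4], ?_⟩
    filter_upwards [(Θ.continuousAt k2).eventually (k4.symm ▸ a3), Θ.open_source.mem_nhds k2]
      with y b1 b2
    rw [Θ.left_inv b2] at b1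
    refine b1.trans (congrArg _ (Finset.prod_congr rfl fun l _ => ?_))
    rw [show a l = g l from dif_pos l.2, ← k5 y b2 l]
    rfl
  exact ⟨a, (e1.trans (Eqv.prod _ fun l _ => (eqv_leq (h1 l) (hζ l)).pow _)).trans
    (eqv_sub hζ a).symm⟩

end Hp

theorem div : DIV := fun _ _ _ _ _ _ => Hp.div

theorem idh : IDH := fun _ _ _ _ a b c _ => Hp.idh a b c

theorem genp : GENP := fun _ _ _ _ _ h _ _ => Hp.genp h

theorem mon : MON := fun _ _ _ _ _ _ _ _ => Hp.mon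

theorem ord : ORD := fun _ _ _ _ _ _ => Hp.ord

theorem cov : COV := fun _ _ _ _ _ _ _ => Hp.cov

end Vale.Agent.P281Z.Nt
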