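import Vale.Agent.P281Z.Nt.Ne
import Vale.Agent.P281Z.Sc.Sy

/-!
# P281: generic smoothness on all strata
-/

open scoped Manifold ContDiff Topology
open Set Filter Function MeasureTheory
open Vale.Agent.P272.K (Cm Chart At)
open Vale.Agent.P277Z (Hol at_chart)
open Vale.Agent.P277Z.Slc (LEq Snc Ind dd tr ind_iff_surj dd_congr dd_mul dd_sub_const)

noncomputable section

namespace Vale.Agent.P281Z.Nt

open Ana

theorem subm_of {n p : ℕ} {V : Mf n} {Y : Mf p} {f : V.X → Y.X} {κ : Type} [Fintype κ]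
    {G : κ → Set V.X} {x : V.X} {e' : Chart p Y.X} {ζ : κ → V.X → ℂ} (hf : HolM n p f)
    (he' : At e' (f x)) (hζ : ∀ l, LEq n (G l) x (ζ l))
    (h : Ind n (Sum.elim (fun l : {l // x ∈ G l} => ζ l) fun a z => e' (f z) a) x) :
    SubmAt n p f G x := by
  intro e₁' he₁' ζ₁ hζ₁
  choose u u1 u2 u3 using fun k => leq_unit (hζ₁ k) (hζ k)
  have := Fintype.ofFinite {k // x ∈ G k}
  refine ⟨Sum.rec (fun k => (hζ₁ k).hol) fun a => hf.hol (hol_chart he₁' a), fun e he =>
    (ind_iff_surj _).2 fun t => ?_⟩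
  obtain ⟨s, hs⟩ := (ind_iff_surj _).1 (h.2 e he) (Sum.elim (fun k => u k x * t (.inl k))
    (tr e' e₁' (f x) fun a => t (.inr a)))
  have k1 : df f e e₁' x s = fun a => t (.inr a) := tr_inj he' he₁' (funext fun a => by
    refine Eq.trans ?_ (congrFun hs (.inr a))
    rw [← ContinuousLinearMap.comp_apply, ← df_id,
      ← df_comp (g := fun y => y) (holM_id.at _) (hf.at x) he he₁' he']
    exact df_apply (hf.at x) he he' s a)
  refine ⟨s, funext ?_⟩
  rintro (k | a)
  · refine mul_left_cancel₀ (u2 k) (Eq.trans ?_ (congrFun hs (.inl k)))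
    exact (DFunLike.congr_fun ((dd_congr (u3 k) he).trans
      (dd_mul (u1 k) (hζ₁ k).hol ((hζ₁ k).mem.2 k.2) he)) s).symm
  · exact (df_apply (hf.at x) he he₁' s a).symm.trans (congrFun k1 a)

open Classical in
theorem crit : CRIT := by
  intro n p V Y f κ _ G hf hG
  refine ⟨.of_fin fun x => ?_, fun y => mem_closure_iff_nhds.2 fun U hU => ?_⟩
  · obtain ⟨ζ, hζ, -⟩ := hG x
    have he := at_chart (n := n) x
    have he' := at_chart (n := p) (f x)
    set e := chartAt (Cm n) x
    set e' := chartAt (Cm p) (f x)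
    let h : ∀ I : Set κ, I ⊕ Fin p → V.X → ℂ := fun I =>
      Sum.elim (fun l => ζ l) fun a z => e' (f z) a
    have h1 : ∀ I y, (∀ l, LEq n (G l) y (ζ l)) → At e' (f y) → ∀ b, Hol n (h I b) y :=
      fun I y a b => Sum.rec (fun l => (a l).hol) fun i => hf.hol (hol_chart b i)
    let g : ∀ I : Set κ, I ⊕ (I ⊕ Fin p → Fin n) → V.X → ℂ := fun I => Sum.elim (fun l => ζ l)
      fun τ y => (Matrix.of fun k b => dd (h I b) e y (Pi.single (τ k) 1)).det
    refine ⟨∀ I : Set κ, I ⊕ (I ⊕ Fin p → Fin n), inferInstance, fun c y => ∏ I, g I (c I) y,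
      fun c => .prod _ fun I _ => ?_, ?_⟩
    · rcases c I with l | τ
      · exact (hζ l).hol
      · exact hol_det fun a b => Nt.hol_dd (h1 I x hζ he' b) he _
    filter_upwards [eventually_all.2 fun l => (hζ l).near, at_near he,
      hf.cont.continuousAt.eventually (at_near he')] with y k1 k2 k3
    simp only [Finset.prod_eq_zero_iff, Finset.mem_univ, true_and]
    refine ⟨fun a c => ⟨{l | y ∈ G l}, ?_⟩, fun a b => ?_⟩
    · rcases c {l | y ∈ G l} with l | τ
      · exact (k1 l).mem.2 l.2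
      · exact not_not.1 fun d => a (subm_of hf k3 k1
          ((ind_iff_minor (h1 _ y k1 k3) k2).2 ⟨τ, d⟩))
    · have d : ∀ I : Set κ, ∃ j, g I j y ≠ 0 := fun I => by
        by_cases hI : ∀ l : I, y ∈ G l
        · obtain ⟨τ, hτ⟩ := (ind_iff_minor (h1 I y k1 k3) k2).1 ((congrArg (Ind n · y)
            (funext (Sum.rec (fun _ => rfl) fun _ => rfl))).mp ((b e' k3 ζ k1).comp
              (Sum.map (fun l : I => ⟨l, hI l⟩) id) (Injective.sumMap (fun l l' a =>
                Subtype.ext (congrArg (fun l : {l // y ∈ G l} => l.1) a)) injective_id)))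
          exact ⟨.inr τ, hτ⟩
        · obtain ⟨l, hl⟩ := not_forall.1 hI
          exact ⟨.inl l, mt (k1 l).mem.1 hl⟩
      choose c hc using d
      exact (a c).elim hc
  · have he' := at_chart (n := p) y
    set e' := chartAt (Cm p) y
    obtain ⟨s, ⟨s1, s2⟩, s3⟩ := mem_closure_iff_nhds.1 (Measure.dense_of_ae
      (P277Z.Slc.stSard_of P277Z.Slc.stUnit n V.X κ G (f ⁻¹' e'.source) p (fun x => e' (f x)) hG
        (e'.open_source.preimage hf.cont) fun x hx i => hf.hol (hol_chart ⟨he'.1, hx⟩ i)) (e' y)) _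
      ((at_ev he' hU).and he'.nhds_target)
    refine ⟨_, s1, fun ⟨x, a, b⟩ => ?_⟩
    obtain ⟨ζ, hζ, -⟩ := hG x
    have c : f x ∈ e'.source := b ▸ e'.map_target s2
    have d := s3 x c ((congrArg e' b).trans (e'.right_inv s2)) ζ hζ
    refine a (subm_of hf ⟨he'.1, c⟩ hζ ⟨Sum.rec (fun l => (hζ l).hol)
      fun i => hf.hol (hol_chart ⟨he'.1, c⟩ i), fun e he =>
        (congrArg (fun v => LinearIndependent ℂ v) (funext ?_)).mp (d.2 e he)⟩)
    rintro (l | i)
    exacts [rfl, dd_sub_const _ _ _ _]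

theorem gen_of (h : REM) : GEN := Ana.gen_of h crit

end Vale.Agent.P281Z.Nt
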