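import Vale.Agent.P281Z.Nt.All
import Vale.Agent.P281Z.Nt.Gen

/-!
# P281, block NEAT: generic smoothness and neat models, without hypotheses
-/

namespace Vale.Agent.P281Z

theorem genS : GEN := Nt.gen_of rem

theorem Nt.neatk : Nt.NEATK := Nt.neatk_of Nt.up rem genS

theorem Nt.neatf : Nt.NEATF := Nt.neatf_of Nt.neatk

end Vale.Agent.P281Z
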