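import Vale.Agent.P281Z.Nt.Sk
import Vale.Agent.P281Z.Mf.Mod
import Vale.Agent.P277Z.Hl.Desc

/-!
# P281, block NEAT: a projective modification is a blowing up
-/

open scoped Manifold ContDiff Topology
open Set Filter
open Vale.Agent.P272.K (Cm Chart At)
open Vale.Agent.P285.H281.FD (Bd IsLB IsSec)
open Vale.Agent.P277Z (Hol Nz at_chart hol_const)
open Vale.Agent.P277Z.Hir (Cpb)

noncomputable section

namespace Vale.Agent.P281Z.Nt

namespace Bw

variable {n : ℕ} {V V₁ : Mf n} {w : V₁.X → V.X} {Z : Set V.X}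

theorem bl (h : Modif n w Z) : P277Z.Hl.Bl n w univ Z := by
  obtain ⟨v, h1, h2, h3⟩ := h.inv
  exact ⟨h.hol.cont, isOpen_univ, h.thin.closed, fun _ => trivial,
    fun _ _ k => (k.isClosed.preimage h.hol.cont).isCompact, fun _ _ => h.ex, h.2.dense,
    fun _ _ => h.hol.hol, fun _ _ => h.inj, fun y hy => ⟨v, (h3 _ hy).1.cont, h2 y hy,
      .of_forall h1, fun a k => (h3 _ hy).1.hol (by rwa [h2 y hy])⟩⟩

/-- holomorphic functions descend -/
theorem desc (h : Modif n w Z) {O : Set V.X} {β : V₁.X → ℂ} (hβ : ∀ x, w x ∈ O → Hol n β x) :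
    ∃ b, (∀ y ∈ O, Hol n b y) ∧ ∀ x, w x ∈ O → b (w x) = β x := by
  choose v hv using h.surj
  have key := fun y (hy : y ∈ O) => P277Z.Hl.Ds.desc (bl h) (mem_univ y) (h.thin.nz y)
    fun x (e : w x = y) => hβ x (e ▸ hy)
  refine ⟨fun y => β (v y), fun y hy => ?_, fun x hx => ?_⟩
  · obtain ⟨b, h1, h2⟩ := key y hy
    exact h1.congr (h2.mono fun z a => (a _ (hv z)).symm)
  · obtain ⟨b, -, h2⟩ := key _ hx
    exact (h2.self_of_nhds _ (hv _)).trans (h2.self_of_nhds x rfl).symm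

theorem cpb_down (h : Modif n w Z) {f g : V.X → ℝ} (hf : ∀ y, 0 ≤ f y) (hg : ∀ y, 0 ≤ g y)
    {y : V.X} (k : ∀ x, w x = y → Cpb (𝓝 x) (fun x => f (w x)) fun x => g (w x)) :
    Cpb (𝓝 y) f g := by
  have hK : IsCompact (w ⁻¹' {y}) := (isClosed_singleton.preimage h.hol.cont).isCompact
  obtain ⟨C, h1, h2⟩ := hK.induction_on
    (p := fun s => Cpb (𝓝ˢ s) (fun x => f (w x)) fun x => g (w x)) ⟨1, one_pos, by simp⟩
    (fun _ _ a ⟨C, b, c⟩ => ⟨C, b, c.filter_mono (nhdsSet_mono a)⟩)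
    (fun s t ⟨C, a, b⟩ ⟨C', a', b'⟩ => ⟨C + C', add_pos a a', by
      rw [nhdsSet_union]
      exact ⟨b.mono fun x c => ⟨by nlinarith [c.1, hg (w x)], by nlinarith [c.2, hf (w x)]⟩,
        b'.mono fun x c => ⟨by nlinarith [c.1, hg (w x)], by nlinarith [c.2, hf (w x)]⟩⟩⟩)
    fun x hx => (k x hx).elim fun C c => ⟨_, mem_nhdsWithin_of_mem_nhds c.2.eventually_nhds,
      C, c.1, eventually_nhdsSet_iff_forall.2 fun _ a => a⟩
  refine ⟨C, h1, (h.hol.cont.isClosedMap.eventually_nhds_fiber y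
    (eventually_nhdsSet_iff_forall.1 h2)).mono fun z a => ?_⟩
  obtain ⟨x, rfl⟩ := h.surj z
  exact a x rfl

theorem cpb_of {T : Type} [TopologicalSpace T] {x : T} {f g a b t : T → ℝ} (ha : ContinuousAt a x)
    (hb : ContinuousAt b x) (a0 : 0 < a x) (b0 : 0 < b x) (ht : ∀ x, 0 ≤ t x)
    (h : ∀ᶠ z in 𝓝 x, f z = a z * t z ∧ g z = b z * t z) : Cpb (𝓝 x) f g := by
  have k1 := div_pos a0 b0
  have k2 := div_pos b0 a0
  refine ⟨a x / b x + b x / a x, by positivity, ?_⟩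
  filter_upwards [h, (ha.div hb b0.ne').eventually_lt continuousAt_const (lt_add_of_pos_right _ k2),
    (hb.div ha a0.ne').eventually_lt continuousAt_const (lt_add_of_pos_left _ k1),
    ha.eventually (lt_mem_nhds a0), hb.eventually (lt_mem_nhds b0)] with z e c1 c2 c3 c4
  rw [e.1, e.2, ← mul_assoc, ← mul_assoc]
  exact ⟨mul_le_mul_of_nonneg_right ((div_lt_iff₀ c4).1 c1).le (ht z),
    mul_le_mul_of_nonneg_right ((div_lt_iff₀ c3).1 c2).le (ht z)⟩

variable {P : Bd V₁.X} {τ : P.ι → V₁.X → ℂ}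

variable (w τ) in
/-- sections which embed `V₁` over `O`, and the functions `G l = s l * τ ^ k` on `O` -/
structure Dt (O : Set V.X) (k N : ℕ) (s : Fin (N + 1) → P.ι → V₁.X → ℂ)
    (G : Fin (N + 1) → V.X → ℂ) : Prop where
  isOpen : IsOpen O
  pos : 1 ≤ k
  hs : ∀ l i x, w x ∈ O → x ∈ P.U i → Hol n (s l i) x
  nz : ∀ x i, w x ∈ O → x ∈ P.U i → ∃ l, s l i x ≠ 0
  sep : ∀ x x' i j, w x ∈ O → w x' = w x → x' ≠ x → x ∈ P.U i → x' ∈ P.U j →
    ∃ l m, s l i x * s m j x' ≠ s m i x * s l j x'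
  imm : ∀ x i l, w x ∈ O → x ∈ P.U i → s l i x ≠ 0 → ∀ h, Hol n h x →
    ∃ (M : ℕ) (g : Fin M → V.X → ℂ) (H : Cm M × Cm (N + 1) → ℂ), (∀ a, Hol n (g a) (w x)) ∧
      AnalyticAt ℂ H (fun a => g a (w x), fun m => s m i x / s l i x) ∧
      h =ᶠ[𝓝 x] fun y => H (fun a => g a (w y), fun m => s m i y / s l i y)
  hG : ∀ l, ∀ y ∈ O, Hol n (G l) y
  eq : ∀ l i x, w x ∈ O → x ∈ P.U i → G l (w x) = s l i x * τ i x ^ k

theorem exists_dt (h : Modif n w Z) (hP : IsLB n P)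
    (hA : P277.RelAmple (P277.H60.Z.XH n V₁.X) (P277.H60.Z.XH n V.X) w P)
    (hτ : IsSec n (P277.Bd.inv P) τ) (z : V.X) : ∃ O k N s G, z ∈ O ∧ Dt w τ O k N s G := by
  obtain ⟨O, k, N, s, h1, h2, h3, h4, h5, h6, h7⟩ := hA z
  choose c hc using hP.cover
  have e : ∀ l i x, w x ∈ O → x ∈ P.U i →
      s l (c x) x * τ (c x) x ^ k = s l i x * τ i x ^ k := fun l i x a b => by
    rw [(h4 l).change _ _ x a (hc x) b, hτ.change _ _ x (hc x) b]
    have := hP.ne_zero _ _ x (hc x) b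
    show P.g _ _ x ^ k * _ * ((P.g _ _ x)⁻¹ * _) ^ k = _
    rw [mul_pow, inv_pow]
    field_simp
  choose G k1 k2 using fun l => desc h (O := O) (β := fun x => s l (c x) x * τ (c x) x ^ k)
    fun x a => (Hol.mul ((h4 l).holo _ x a (hc x)) (Hol.pow (fun e he =>
      (hτ.holo _ e x he (hc x)).analyticAt) k)).congr (by
        filter_upwards [(hP.isOpen _).mem_nhds (hc x),
          h.hol.cont.continuousAt.eventually (h1.mem_nhds a)] with y b1 b2 using (e l _ y b2 b1).symm)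
  exact ⟨O, k, N, s, G, h2, h1, h3, fun l i x => (h4 l).holo i x, h5, h6, h7, k1,
    fun l i x a b => (k2 l x a).trans (e l i x a b)⟩

variable {O : Set V.X} {k N : ℕ} {s : Fin (N + 1) → P.ι → V₁.X → ℂ} {G : Fin (N + 1) → V.X → ℂ}
  {m : ℕ} {W : Mf m} {g : W.X → V.X} {r : Fin (N + 1) → W.X → ℂ} {j : Fin (N + 1)} {y : W.X}

variable (w s g r j) in
/-- `x` is the point over `g y` with the homogeneous coordinates `r y` -/
def Rel (y : W.X) (x : V₁.X) : Prop := w x = g y ∧ ∀ i, x ∈ P.U i → ∀ l, s l i x = s j i x * r l y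

theorem Dt.uniq (D : Dt w τ O k N s G) (hP : IsLB n P) (hy : g y ∈ O) {x x' : V₁.X}
    (h : Rel w s g r j y x) (h' : Rel w s g r j y x') : x' = x := by
  by_contra e
  obtain ⟨i, hi⟩ := hP.cover x
  obtain ⟨i', hi'⟩ := hP.cover x'
  obtain ⟨l, l', c⟩ := D.sep x x' i i' (h.1 ▸ hy) (h'.1.trans h.1.symm) e hi hi'
  refine c ?_
  rw [h.2 i hi l, h.2 i hi l', h'.2 i' hi' l, h'.2 i' hi' l']
  ring

theorem Dt.closed (D : Dt w τ O k N s G) (hP : IsLB n P) (hw : Continuous w) (hy : g y ∈ O)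
    (hg : ContinuousAt g y) (hr : ∀ l, ContinuousAt (r l) y) {F : Filter W.X} (hF : F ≤ 𝓝 y)
    {u : W.X → V₁.X} (hu : ∀ᶠ z in F, Rel w s g r j z (u z)) {x : V₁.X}
    (hx : MapClusterPt x F u) : Rel w s g r j y x := by
  obtain ⟨U, h1, h2⟩ := mapClusterPt_iff_ultrafilter.1 hx
  have h3 := hu.filter_mono h1
  have h4 : w x = g y := tendsto_nhds_unique_of_eventuallyEq ((hw.tendsto x).comp h2)
    (hg.tendsto.mono_left (h1.trans hF)) (h3.mono fun _ a => a.1)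
  refine ⟨h4, fun i hi l => tendsto_nhds_unique_of_eventuallyEq
    ((D.hs l i x (h4 ▸ hy) hi).cont.tendsto.comp h2) (((D.hs j i x (h4 ▸ hy) hi).cont.tendsto.comp
      h2).mul ((hr l).tendsto.mono_left (h1.trans hF))) ?_⟩
  filter_upwards [h3, h2.eventually ((hP.isOpen i).mem_nhds hi)] with z a b using a.2 i b l

theorem Dt.ne (D : Dt w τ O k N s G) (hP : IsLB n P) (h0 : ∀ i, ∀ x ∈ P.U i, τ i x = 0 ↔ w x ∈ Z)
    {x : V₁.X} (hx : w x ∈ O) : (∀ l, G l (w x) = 0) ↔ w x ∈ Z := by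
  obtain ⟨i, hi⟩ := hP.cover x
  obtain ⟨l, hl⟩ := D.nz x i hx hi
  have := D.pos
  simp only [D.eq _ i x hx hi, ← h0 i x hi]
  exact ⟨fun a => (pow_eq_zero_iff (by omega)).1 ((mul_eq_zero.1 (a l)).resolve_left hl),
    fun a _ => by rw [a, zero_pow (by omega), mul_zero]⟩

/-- the ratios extend -/
theorem Dt.ratio (D : Dt w τ O k N s G) (hP : IsLB n P)
    (h0 : ∀ i, ∀ x ∈ P.U i, τ i x = 0 ↔ w x ∈ Z) (hg : HolM m n g) (hd : Dense (g ⁻¹' Z)ᶜ)
    (hy : g y ∈ O) {q : ℕ} (hq : q ≠ 0) {v : V.X → V₁.X} (hv : ∀ z, w (v z) = z)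
    (hj : ∀ l, ∃ C : ℝ, ∀ᶠ z in 𝓝 y, ‖G l (g z) ^ q‖ ≤ C * ‖G j (g z) ^ q‖) :
    ∃ r : Fin (N + 1) → W.X → ℂ, (∀ l, Hol m (r l) y) ∧
      ∀ᶠ z in 𝓝 y, g z ∉ Z → Rel w s g r j z (v (g z)) := by
  choose C hC using hj
  have h1 : ∀ᶠ z in 𝓝 y, g z ∈ O := hg.cont.continuousAt.eventually (D.isOpen.mem_nhds hy)
  have h2 : ∀ᶠ z in 𝓝 y, g z ∉ Z → G j (g z) ≠ 0 := by
    filter_upwards [h1, eventually_all.2 hC] with z a b c e
    rw [← hv (g z)] at a c
    refine c ((D.ne hP h0 a).1 fun l => ?_)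
    have := b l
    rw [e, zero_pow hq, norm_zero, mul_zero, norm_le_zero_iff] at this
    rw [hv, (pow_eq_zero_iff hq).1 this]
  choose r k1 k2 using fun l => P277Z.Hl.Ds.riem (f := fun z => G l (g z) / G j (g z))
    (C := max 1 (C l)) (hg.hol (D.hG j _ hy)) (fun e => mem_closure_iff_frequently.1 (hd y)
      ((h2.and e).mono fun _ a b => a.1 b a.2)) (by
      filter_upwards [h1, hC l] with z a b c
      refine ⟨(hg.hol (D.hG l _ a)).div (hg.hol (D.hG j _ a)) c, le_max_iff.2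
        ((le_total _ 1).imp_right fun e => (le_self_pow₀ e hq).trans ?_)⟩
      rwa [← norm_pow, div_pow, norm_div, div_le_iff₀ (norm_pos_iff.2 (pow_ne_zero _ c))])
  refine ⟨r, k1, ?_⟩
  filter_upwards [h1, h2, eventually_all.2 k2] with z a b c e
  refine ⟨hv _, fun i hi l => ?_⟩
  have a' : w (v (g z)) ∈ O := by rwa [hv]
  have e1 := fun l => D.eq l i _ a' hi
  have e2 := b e
  rw [hv] at e1
  rw [c l e2, e1 l, e1 j]
  rw [e1 j] at e2
  have := left_ne_zero_of_mul e2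
  have := right_ne_zero_of_mul e2
  field_simp

theorem Dt.lift (D : Dt w τ O k N s G) (hP : IsLB n P) (hw : Continuous w) (hg : HolM m n g)
    (hy : g y ∈ O) (hr : ∀ l, Hol m (r l) y) {S : Set W.X} {u g' : W.X → V₁.X}
    (hu : ∀ᶠ z in 𝓝 y, z ∈ S → Rel w s g r j z (u z)) (h : ∀ z, MapClusterPt (g' z) (𝓝[S] z) u) :
    w (g' y) = g y ∧ HolA m n g' y := by
  have h1 : ∀ᶠ z in 𝓝 y, Rel w s g r j z (g' z) := by
    filter_upwards [hg.cont.continuousAt.eventually (D.isOpen.mem_nhds hy), hu.eventually_nhds,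
      eventually_all.2 fun l => (hr l).near] with z a b c
    exact D.closed hP hw a hg.cont.continuousAt (fun l => (c l).cont) nhdsWithin_le_nhds
      (eventually_nhdsWithin_iff.2 b) (h z)
  have h2 := h1.self_of_nhds
  have h3 : ContinuousAt g' y := isCompact_univ.tendsto_nhds_of_unique_mapClusterPt univ_mem
    fun x _ a => D.uniq hP hy h2
      (D.closed hP hw hy hg.cont.continuousAt (fun l => (hr l).cont) le_rfl h1 a)
  obtain ⟨i, hi⟩ := hP.cover (g' y)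
  have h4 : w (g' y) ∈ O := h2.1 ▸ hy
  have h5 : s j i (g' y) ≠ 0 := (D.nz _ i h4 hi).elim fun l a =>
    left_ne_zero_of_mul (h2.2 i hi l ▸ a)
  have h6 : ∀ᶠ z in 𝓝 y, w (g' z) = g z ∧ (fun l => s l i (g' z) / s j i (g' z)) = fun l => r l z := by
    filter_upwards [h1, h3.eventually ((hP.isOpen i).mem_nhds hi),
      h3.eventually ((D.hs j i _ h4 hi).ne_near h5)] with z a b c
    exact ⟨a.1, funext fun l => by rw [a.2 i b l, mul_div_cancel_left₀ _ c]⟩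
  refine ⟨h2.1, .of_hol h3 (at_chart _) fun a => ?_⟩
  obtain ⟨M, c, H, k1, k2, k3⟩ := D.imm _ i j h4 hi h5 _ (hol_chart (at_chart _) a)
  rw [h6.self_of_nhds.2, h2.1] at k2
  rw [h2.1] at k1
  refine Hol.congr (a := fun z => H (fun a => c a (g z), fun l => r l z))
    (((AnV.pi fun a => hg.hol (k1 a)).prod (AnV.pi hr)).cmp k2) ?_
  filter_upwards [h6, h3.eventually k3] with z b1 b2
  rw [b2, b1.1, b1.2]

end Bw

open Bw in
theorem blow : BLOW := by
  intro n V V₁ w Z P τ h hP hA hτ h0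
  classical
  choose O k N s G hz D using exists_dt h hP hA hτ
  obtain ⟨t, ht⟩ := CompactSpace.elim_nhds_subcover O fun z => (D z).isOpen.mem_nhds (hz z)
  have hc : ∀ y, ∃ γ : t, y ∈ O γ := fun y => by
    obtain ⟨z, a, b⟩ := mem_iUnion₂.1 (ht.ge (mem_univ y))
    exact ⟨⟨z, a⟩, b⟩
  set q : V.X → ℕ := fun z => ∏ z' ∈ t.erase z, k z' with hq
  have q0 : ∀ z, q z ≠ 0 := fun z =>
    Finset.prod_ne_zero_iff.2 fun z' _ => Nat.one_le_iff_ne_zero.1 (D z').pos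
  have key : ∀ (γ : t) i x, w x ∈ O γ → x ∈ P.U i → ∑ l, ‖G γ l (w x) ^ q γ‖ =
      (∑ l, ‖s γ l i x‖ ^ q γ) * ‖τ i x‖ ^ ∏ z ∈ t, k z := fun γ i x a b => by
    simp only [(D γ).eq _ i x a b, norm_pow, norm_mul, mul_pow, ← pow_mul, Finset.sum_mul, hq,
      Finset.mul_prod_erase t k γ.2]
  have pos : ∀ z i x, w x ∈ O z → x ∈ P.U i → 0 < ∑ l, ‖s z l i x‖ ^ q z := fun z i x a b =>
    ((D z).nz x i a b).elim fun l c => Finset.sum_pos' (fun _ _ => by positivity)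
      ⟨l, Finset.mem_univ _, pow_pos (norm_pos_iff.2 c) _⟩
  have cont : ∀ z i x, w x ∈ O z → x ∈ P.U i → ContinuousAt (fun x => ∑ l, ‖s z l i x‖ ^ q z) x :=
    fun z i x a b => tendsto_finsetSum _ fun l _ => ((D z).hs l i x a b).cont.norm.pow _
  let I : Idl n V.X := ⟨t, fun γ => O γ, fun γ => N γ + 1, fun γ l y => G γ l y ^ q γ,
    fun γ => (D γ).isOpen, hc, fun γ l y a => ((D γ).hG l y a).pow _, fun γ γ' y a b =>
      cpb_down h (fun _ => by positivity) (fun _ => by positivity) fun x e => by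
        subst e
        obtain ⟨i, hi⟩ := hP.cover x
        refine cpb_of (cont γ i x a hi) (cont γ' i x b hi) (pos γ i x a hi) (pos γ' i x b hi)
          (t := fun x => ‖τ i x‖ ^ ∏ z ∈ t, k z) (fun _ => by positivity) ?_
        filter_upwards [(hP.isOpen i).mem_nhds hi, h.hol.cont.continuousAt.eventually
          (((D γ).isOpen.inter (D γ').isOpen).mem_nhds ⟨a, b⟩)] with z c1 c2
        exact ⟨key γ i z c2.1 c1, key γ' i z c2.2 c1⟩⟩
  have hZ : I.Z = Z := by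
    ext y
    obtain ⟨x, rfl⟩ := h.surj y
    obtain ⟨γ, hγ⟩ := hc (w x)
    exact ⟨fun a => ((D γ).ne hP h0 hγ).1 fun l => (pow_eq_zero_iff (q0 _)).1 (a γ hγ l),
      fun a γ' b l => (pow_eq_zero_iff (q0 _)).2 (((D γ').ne hP h0 b).2 a l)⟩
  refine ⟨I, hZ, fun m W g hg hd hj => ?_⟩
  rw [hZ] at hd
  choose v hv using h.surj
  choose g' hg' using fun z : W.X => have := mem_closure_iff_nhdsWithin_neBot.1 (hd z)
    exists_clusterPt_of_compactSpace (map (fun z => v (g z)) (𝓝[(g ⁻¹' Z)ᶜ] z))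
  have fin : ∀ y, w (g' y) = g y ∧ HolA m n g' y := fun y => by
    obtain ⟨γ, hγ⟩ := hc (g y)
    obtain ⟨j, hj⟩ := hj y γ hγ
    obtain ⟨r, h1, h2⟩ := (D γ).ratio hP h0 hg hd hγ (q0 γ) hv hj
    exact (D γ).lift hP h.hol.cont hg hγ h1 h2 hg'
  exact ⟨g', fun y => (fin y).2, fun y => (fin y).1⟩

end Vale.Agent.P281Z.Nt
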