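import Vale.Agent.P281Z.Nt.Sk
import Vale.Agent.P281Z.Mf.Prod
import Vale.Agent.P281Z.Rs.Clo

/-!
# P281, block NEAT: the main component of the fibre product
-/

open scoped Manifold ContDiff Topology
open Set Filter
open Vale.Agent.P272.K (Cm Chart At)
open Vale.Agent.P277Z (at_chart)

noncomputable section

namespace Vale.Agent.P281Z.Nt

theorem graph_of (hR : Rs.RES) : GRAPH := by
  intro n p X Y Y₁ f v B hf hd hv
  have hB : An n (f ⁻¹' B) := hv.thin.an.pre hf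
  obtain ⟨I, hI, -⟩ := Rs.idl (n + p) (X.prod Y₁) (X.p1 Y₁ ⁻¹' (f ⁻¹' B)) (hB.pre hol_p1)
  obtain ⟨R⟩ := hR (n + p) n (X.prod Y₁) (fp f v) I (fp_an hf hv.hol) (by
    rw [hI]
    exact fp_subM rfl hf hv.hol (hB.pre hol_p1).closed.isOpen_compl fun z hz =>
      .inr (hv.sbm fun k => hz.2 (mem_of_eq_of_mem (s := B) (show f _ = v _ from hz.1) k)))
  have hO := R.ovr
  rw [hI] at hO
  have h1 : HolM n n fun x => X.p1 Y₁ (R.π x) := hol_p1.comp hO.hol
  have h2 : HolM n p fun x => X.p2 Y₁ (R.π x) := hol_p2.comp hO.hol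
  have hc : ∀ x, f (X.p1 Y₁ (R.π x)) = v (X.p2 Y₁ (R.π x)) := hO.maps
  refine ⟨R.V, _, _, ⟨⟨hB, hd⟩, h1, fun _ => trivial, hO.dense, fun x _ hx => ?_, fun x hx => ?_⟩,
    h2, hc, fun a b => R.kah (a.prod b)⟩
  · obtain ⟨y, hy⟩ := hv.ex hx
    obtain ⟨z, hz, hu⟩ := hO.one (X.pair Y₁ x y) hy.symm hx
    refine ⟨z, congrArg (X.p1 Y₁) hz, fun z' hz' => hu z' (prod_ext hz' ?_)⟩
    exact hv.inj (x := y) (hy ▸ hx) ((hc z').symm.trans ((congrArg f hz').trans hy.symm))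
  · intro e e' he he'
    have c1 := at_chart (n := p) (X.p2 Y₁ (R.π x))
    have c2 := at_chart (n := p) (v (X.p2 Y₁ (R.π x)))
    have k := (imm_pair (h1.at x) (h2.at x) he he' c1).1 (hO.imm x hx)
    rw [injective_iff_map_eq_zero]
    refine fun ξ hξ => k ξ hξ ?_
    have a := df_comp (e'' := chartAt (Cm p) (v (X.p2 Y₁ (R.π x)))) (hf.at _) (h1.at x) he he'
      (by rw [hc]; exact c2)
    have b := df_comp (hv.hol.at _) (h2.at x) he c1 c2
    have hi := hv.imm (x := X.p2 Y₁ (R.π x)) (hc x ▸ hx) _ _ c1 c2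
    refine (injective_iff_map_eq_zero _).1 hi _ ?_
    rw [← ContinuousLinearMap.comp_apply, ← b, ← funext hc, a, ContinuousLinearMap.comp_apply, hξ,
      map_zero]

end Vale.Agent.P281Z.Nt
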