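import Vale.Agent.P281Z.Rs.Res
import Vale.Agent.P277Z.GH.OfAmp

/-!
# P281, block NEAT: principalization which is compatible with a given boundary
-/

open scoped Manifold ContDiff Topology
open Set Filter
open Vale.Agent.P272.K (Cm Chart At)
open Vale.Agent.P277.H60.Z (XH)
open Vale.Agent.P277Z (Hol at_chart)
open Vale.Agent.P277Z.Slc (LEq Snc Ind dd)
open Vale.Agent.P277Z.Hir (Cpb Out Bdy)

noncomputable section

namespace Vale.Agent.P281Z.Nt

open Rs Rs.Ou

variable {n : ℕ} {V : Mf n} {κ : Type} [Fintype κ] {G : κ → Set V.X} {I : Idl n V.X}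

theorem rl_triv (hG : Snc n G) (hZ : ∀ x, x ∉ I.Z) : Nonempty (Rl V G I) := by
  obtain ⟨r, p, G', c1, c2, c3, c4, c5⟩ := cmps hG
  refine ⟨⟨V, fun x => x, modif_id.mono ⟨I.an, fun x => subset_closure (hZ x)⟩ (empty_subset _), r,
    G', c1, c2, fun x => ⟨fun h => ⟨fun l a => (c4 l x a).elim fun k b => h k b.2, hZ x⟩,
      fun h k a => h.1 _ (c3 k a)⟩, fun x _ k a => ⟨p k, (c5 k x a).mono fun z b =>
      ⟨fun c => c3 k c, b⟩⟩, 0, fun y γ hy ζ _ => ⟨I.g γ, fun k => I.hol γ k y hy,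
      not_forall.1 (mt (Idl.mem_Z hy).2 (hZ y)), by simp⟩, id, id, I, rfl,
    fun _ _ g hg _ _ => ⟨g, hg, fun _ => rfl⟩⟩⟩

theorem exists_bdy (I : Idl n V.X) (hG : Snc n G) :
    ∃ B : Bdy (base I continuous_id) n (Fintype.card κ),
      ∀ l, B.D l = G ((Fintype.equivFin κ).symm l) := by
  classical
  set σ := (Fintype.equivFin κ).symm
  choose ζ h1 h2 using hG
  have h3 : ∀ x, ∀ᶠ y in 𝓝 x, ∀ k, (ζ x k y = 0 ↔ y ∈ G k) ∧ (x ∉ G k → y ∉ G k) := fun x =>
    eventually_all.2 fun k => (h1 x k).1.and (by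
      by_cases hk : x ∈ G k
      · exact .of_forall fun _ h => absurd hk h
      · exact ((h1 x k).not_mem_near hk).mono fun _ h _ => h)
  choose Θ ι k1 k2 k3 _ k5 using fun x =>
    Hp.exists_crd (h2 x) (fun k => (h1 x k).mem.2 k.2) (h3 x)
  refine ⟨⟨fun l => G (σ l), _, _, _,
    fun x l => if h : x ∈ G (σ l) then some (ι x ⟨_, h⟩) else none, k2,
    fun x => model I .id (k1 x) (.id ℂ _) (.id ℂ _) (fun _ => rfl) (fun i => i.elim0) (by simp),
    fun x l l' i a b => ?_, fun x l y hy => ?_⟩, fun _ => rfl⟩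
  · split_ifs at a b
    exact σ.injective (congrArg Subtype.val ((ι x).injective
      ((Option.some.inj a).trans (Option.some.inj b).symm)))
  · split_ifs with h
    · simpa [k5 x y hy] using (k3 x hy (σ l)).1.symm
    · simpa using (k3 x hy (σ l)).2 h

theorem resl_of (h : P277Z.Hir.StMainL) (hK : P277Z.Pos.KOD) (hB : BLOW) : RESL := by
  intro n V κ _ G I hG hd
  rcases n.eq_zero_or_pos with rfl | hn
  · refine rl_triv hG fun x hx => ?_
    obtain ⟨y, a, b⟩ := mem_closure_iff_nhds.1 (hd x) _ (chart_source_mem_nhds (Cm 0) x)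
    exact b ((chartAt (Cm 0) x).injOn (mem_chart_source _ x) a (Subsingleton.elim _ _) ▸ hx)
  obtain ⟨B, hD⟩ := exists_bdy I hG
  obtain ⟨o⟩ := h _ n univ _ B hn hd isCompact_univ
  set σ := (Fintype.equivFin κ).symm
  have h1 : Snc n (Sum.elim o.G o.old) :=
    snc_lab (lab := fun y => Sum.elim (o.lab y) (o.labo y)) (fun y => by
      rintro (l | l) (k | k) i a b
      exacts [congrArg _ (o.inj y l k i a b), absurd a (o.disj y k l i b),
        absurd b (o.disj y l k i a), congrArg _ (o.injo y l k i a b)]) fun y l => by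
      cases l
      exacts [o.snc y _, o.snco y _]
  have : CompactSpace o.Y := (mf o.toOut).cpt
  obtain ⟨r, p, G', c1, c2, c3, c4, c5⟩ := cmps h1
  have h2 : ∀ y ∈ off G', o.π y ∉ I.Z := fun y a b =>
    ((o.bad y).1 b).elim fun l c => (c4 (.inl l) y c).elim fun k d => a k d.2
  have h3 : ∀ y k, o.π y ∉ I.Z → y ∈ G' k → ∃ l, p k = .inr l := fun y k a b => by
    have c := c3 k b
    rcases e : p k with l | l
    · exact absurd ((o.bad y).2 ⟨l, by rwa [e] at c⟩) a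
    · exact ⟨l, rfl⟩
  have hm : Modif n (X₁ := (mf o.toOut).X) o.π I.Z := ⟨⟨I.an, hd⟩, hol o.toOut, fun _ => trivial,
    o.dense, fun y _ c => (o.surj y (o.sub trivial) c).imp fun x hx =>
      ⟨hx, fun x' e => o.one x x' (hx ▸ c) (e.trans hx.symm)⟩, fun y => imm o.toOut⟩
  obtain ⟨e, he⟩ := glob (J := I.pull (hol o.toOut)) c1 c2 (Ou.mon o.toOut c1 h2)
  have k := kahr n n (mf o.toOut) V _ o.r o.G o.c o.v (hol o.toOut) o.c0 (pos o.toOut)
  obtain ⟨m, P, a, a1, a2, a3, a4, a5⟩ := P277Z.GH.Of.amp (X := XH n V.X) (π := o.π) (v := o.v) hK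
    o.cont (fun y g => hh o.toOut) ⟨o.inj, o.snc⟩ o.c0 fun y =>
      let ⟨m, g, ε, U, h, b, c⟩ := o.pos y
      ⟨m, g, ε, U, h, fun i => (b i).elim fun _ d => d.1.congr (d.2.mono fun _ => Eq.symm), c⟩
  refine ⟨⟨mf o.toOut, o.π, hm, r, G', c1, c2, fun x => ⟨fun b => ⟨fun l c => ?_, h2 x b⟩,
    fun b k c => ?_⟩, fun x b k c => ?_, e, he, k.1, k.2,
    hB n V _ _ _ P _ hm a2 a3 a5 fun i y hy => ?_⟩⟩
  · obtain ⟨k, -, d⟩ := c4 (.inr (σ.symm l)) x (o.off _ x (h2 x b) (by rwa [hD, σ.apply_symm_apply]))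
    exact b k d
  · obtain ⟨l, d⟩ := h3 x k b.2 c
    exact b.1 _ (hD l ▸ o.subo l x (by simpa [d] using c3 k c))
  · obtain ⟨l, d⟩ := h3 x k b c
    refine ⟨σ l, ?_⟩
    filter_upwards [c5 k x c, o.cont.continuousAt.eventually
      (I.an.closed.isOpen_compl.mem_nhds b)] with z p1 p2
    rw [← hD]
    exact ⟨fun q => o.subo l z (by simpa [d] using c3 k q), fun q => p1 (by
      simpa [d] using o.off l z p2 q)⟩
  · refine Finset.prod_eq_zero_iff.trans (Iff.trans ?_ (o.bad y).symm)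
    refine exists_congr fun l => ((and_iff_right (Finset.mem_univ l)).trans
      (pow_eq_zero_iff (a1 l).ne')).trans ?_
    exact (leq_lab ⟨chart_mem_atlas _ _, a4 i hy⟩ (o.snc (a i) l)).mem

end Vale.Agent.P281Z.Nt
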