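import Vale.Agent.P281Z.Nt.Down

/-!
# P281, block NEAT: the order of vanishing of the minors
-/

open scoped Manifold ContDiff Topology
open Set Filter Function
open Vale.Agent.P272.K
open Vale.Agent.P277Z (Hol at_chart hol_const)
open Vale.Agent.P277Z.Slc (Ind LEq Snc dd)

set_option linter.unusedSectionVars false

noncomputable section

namespace Vale.Agent.P281Z.Nt

variable {n p : ℕ}

/-- the determinant of the images of `p` vectors -/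
def mn (A : Cm n →L[ℂ] Cm p) (ξ : Fin p → Cm n) : ℂ := (Matrix.of fun a b : Fin p => A (ξ b) a).det

theorem mn_left (T : Cm p →L[ℂ] Cm p) (A : Cm n →L[ℂ] Cm p) (ξ : Fin p → Cm n) :
    mn (T.comp A) ξ = (LinearMap.toMatrix' (T : Cm p →ₗ[ℂ] Cm p)).det * mn A ξ := by
  rw [mn, mn, ← Matrix.det_mul]
  congr 1
  ext a b
  exact congrFun (LinearMap.toMatrix'_mulVec (T : Cm p →ₗ[ℂ] Cm p) (A (ξ b))).symm a

theorem mn_le (A : Cm n →L[ℂ] Cm p) (ξ : Fin p → Cm n) :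
    ‖mn A ξ‖ ≤ p.factorial * ‖A‖ ^ p * ∏ b, ‖ξ b‖ := by
  rw [mn, Matrix.det_apply']
  refine (norm_sum_le_of_le _ (n := fun _ => ‖A‖ ^ p * ∏ b, ‖ξ b‖) fun σ _ => ?_).trans ?_
  · have h : ‖((Equiv.Perm.sign σ : ℤ) : ℂ)‖ = 1 := by
      rcases Int.units_eq_one_or (Equiv.Perm.sign σ) with h | h <;> simp [h]
    rw [norm_mul, h, one_mul, norm_prod]
    refine (Finset.prod_le_prod (fun _ _ => norm_nonneg _) fun b _ =>
      (norm_le_pi_norm (A (ξ b)) (σ b)).trans (A.le_opNorm _)).trans ?_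
    simp [Finset.prod_mul_distrib]
  · simp [Fintype.card_perm, mul_assoc]

variable {X Y X₁ Y₁ : Type} [TopologicalSpace X] [ChartedSpace (Cm n) X]
  [TopologicalSpace Y] [ChartedSpace (Cm p) Y] [TopologicalSpace X₁] [ChartedSpace (Cm n) X₁]
  [TopologicalSpace Y₁] [ChartedSpace (Cm p) Y₁] [IsManifold 𝓘(ℂ, Cm n) ω X]
  [IsManifold 𝓘(ℂ, Cm p) ω Y] [IsManifold 𝓘(ℂ, Cm n) ω X₁] [IsManifold 𝓘(ℂ, Cm p) ω Y₁]

theorem DV.near {f : X → Y} {k : ℕ} {ζ : X → ℂ} {x : X} (hf : ContinuousAt f x)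
    (h : DV n p f k ζ x) : ∀ᶠ y in 𝓝 x, DV n p f k ζ y := by
  obtain ⟨e, e', C, h1, h2, h3⟩ := h
  filter_upwards [at_near h1, hf.eventually (at_near h2), h3.eventually_nhds] with y a b c
    using ⟨e, e', C, a, b, c⟩

theorem _root_.Vale.Agent.P281Z.Sbm.minor {f : X → Y} {x : X} (h : Sbm n p f x) {e : Chart n X}
    {e' : Chart p Y} (he : At e x) (he' : At e' (f x)) : ∃ I, minor f e e' I x ≠ 0 := by
  obtain ⟨τ, hτ⟩ := Ana.exists_rows (M := (dfM f e e' x).transpose) (c := p) (by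
    rw [Matrix.rank_transpose, dfM, ← Ana.rk_eq, (Ana.rk_eq_iff_surj _).2 (h e e' he he')])
  exact ⟨τ, minor_eq (f := f) τ ▸ ((Matrix.isUnit_iff_isUnit_det _).1
    ((Matrix.linearIndependent_cols_iff_isUnit (A := (dfM f e e' x).submatrix id τ)).1 hτ)).ne_zero⟩

theorem tr {f : X → Y} {f₁ : X₁ → Y₁} {w : X₁ → X} {v : Y₁ → Y} {x : X₁} {ρ : X₁ → ℝ}
    (hf : HolA n p f (w x)) (hf₁ : HolA n p f₁ x) (hw : HolA n n w x) (hv : HolA p p v (f₁ x))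
    (hc : ∀ᶠ z in 𝓝 x, f (w z) = v (f₁ z)) (hi : Imm n n w x) {e : Chart n X} {e' : Chart p Y}
    {e₁ : Chart n X₁} {e₁' : Chart p Y₁} (he : At e (w x)) (he' : At e' (f (w x))) (he₁ : At e₁ x)
    (he₁' : At e₁' (f₁ x)) (hρ : ∀ y, 0 ≤ ρ y)
    (h : ∀ᶠ y in 𝓝 x, ∀ ξ, ‖mn (df f₁ e₁ e₁' y) ξ‖ ≤ ρ y * ∏ b, ‖ξ b‖) :
    ∃ K : ℝ, 0 ≤ K ∧ ∀ᶠ y in 𝓝 x, ∀ η, ‖mn (df f e e' (w y)) η‖ ≤
      K * ‖(dfM v e₁' e' (f₁ y)).det‖ * ρ y * ∏ b, ‖η b‖ := by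
  obtain ⟨g, g1, g2, -, g4, g5⟩ := hi.inv hw
  have h1 := ((df_cont g2 he (g1.symm ▸ he₁)).norm.tendsto.comp hw.cont).eventually
    (gt_mem_nhds (lt_add_one _))
  set K := ‖df g e e₁ (w x)‖ + 1
  have hK : 0 ≤ K := by positivity
  refine ⟨K ^ p, by positivity, ?_⟩
  filter_upwards [h, h1, g4, hw.cont.eventually g5.eventually_nhds, hw.cont.eventually g2.near,
    hw.cont.eventually hf.near, hf₁.near, hw.near, hf₁.cont.eventually hv.near, hc.eventually_nhds,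
    hw.cont.eventually (at_near he), (hf.cmp hw).cont.eventually (at_near he'), at_near he₁,
    hf₁.cont.eventually (at_near he₁')] with y k1 k2 k3 k4 k5 k6 k7 k8 k9 l1 l2 l3 l4 l5 η
  have a1 : (df w e₁ e y).comp (df g e e₁ (w y)) = ContinuousLinearMap.id ℂ _ := by
    have := df_comp (g := w) (k3.symm ▸ k8) k5 l2 (k3.symm ▸ l4) (k3.symm ▸ l2)
    rw [k3] at this
    rw [← this, df_congr k4 l2, df_id_self l2]
  have a2 : df f e e' (w y) = (df v e₁' e' (f₁ y)).comp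
      ((df f₁ e₁ e₁' y).comp (df g e e₁ (w y))) := by
    rw [← ContinuousLinearMap.comp_assoc, ← df_comp k9 k7 l4 l5 (l1.self_of_nhds ▸ l3),
      ← df_congr l1 l4, df_comp k6 k8 l4 l2 l3, ContinuousLinearMap.comp_assoc, a1,
      ContinuousLinearMap.comp_id]
  have a3 : ∏ b, ‖df g e e₁ (w y) (η b)‖ ≤ K ^ p * ∏ b, ‖η b‖ :=
    (Finset.prod_le_prod (fun _ _ => norm_nonneg _) fun b _ =>
      (df g e e₁ (w y)).le_of_opNorm_le k2.le (η b)).trans (by simp [Finset.prod_mul_distrib])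
  rw [a2, mn_left, norm_mul]
  refine (mul_le_mul_of_nonneg_left ((k1 fun b => df g e e₁ (w y) (η b)).trans
    (mul_le_mul_of_nonneg_left a3 (hρ y))) (norm_nonneg _)).trans (le_of_eq ?_)
  rw [dfM]
  ring

theorem DV.abs {f : X → Y} {k : ℕ} {ζ : X → ℂ} {x : X} (h : DV n p f k ζ x) :
    ∃ (e : Chart n X) (e' : Chart p Y) (C : ℝ), At e x ∧ At e' (f x) ∧ 0 ≤ C ∧ ∀ᶠ y in 𝓝 x,
      ∀ ξ, ‖mn (df f e e' y) ξ‖ ≤ C * ‖ζ y‖ ^ k * ∏ b, ‖ξ b‖ :=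
  let ⟨e, e', C, h1, h2, h3⟩ := h
  ⟨e, e', |C|, h1, h2, abs_nonneg C, h3.mono fun _ a ξ => (a ξ).trans (by
    gcongr
    exact le_abs_self C)⟩

theorem bdd {a : X → ℂ} {x : X} (h : ContinuousAt a x) : ∃ C : ℝ, 0 ≤ C ∧ ∀ᶠ y in 𝓝 x, ‖a y‖ ≤ C :=
  ⟨‖a x‖ + 1, by positivity, (h.norm.eventually (gt_mem_nhds (lt_add_one _))).mono fun _ => le_of_lt⟩

theorem dv0 : DV0 := fun n p _ _ f ζ x hf => by
  have h := (df_cont (hf.at x) (at_chart x) (at_chart _)).norm.eventually (gt_mem_nhds (lt_add_one _))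
  refine ⟨_, _, p.factorial * (‖df f (chartAt (Cm n) x) (chartAt (Cm p) (f x)) x‖ + 1) ^ p,
    at_chart x, at_chart _, h.mono fun y a ξ => (mn_le _ ξ).trans ?_⟩
  rw [pow_zero, mul_one]
  gcongr

theorem drop : DROP := by
  intro n p X X₁ Y Y₁ f f₁ w v D D₁ ζ ζ₁ x k hf hf₁ hw hv hc hi hx h1 h2 h3 h4 h5
  obtain ⟨e₁, e₁', C, a1, a2, a3, a4⟩ := h5.abs
  have he := at_chart (n := n) (w x)
  have he' := at_chart (n := p) (f (w x))
  obtain ⟨K, b1, b2⟩ := tr (hf.at _) (hf₁.at _) (hw.at _) (hv.at _) (.of_forall hc) hi he he' a1 a2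
    (fun y => by positivity) a4
  have he'' : At (chartAt (Cm p) (f (w x))) (v (f₁ x)) := hc x ▸ he'
  obtain ⟨c, c1, c2⟩ := Hp.div h1 (b := fun y => (dfM v e₁' (chartAt (Cm p) (f (w x))) (f₁ y)).det)
    (hf₁.hol (a := fun y => (dfM v e₁' (chartAt (Cm p) (f (w x))) y).det)
      (hol_det (hol_dfM (hv.at _) a2 he''))) (by
    filter_upwards [h4, hf₁.cont.continuousAt.eventually (at_near a2),
      (hv.comp hf₁).cont.continuousAt.eventually (at_near he'')] with y a b c d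
    exact not_not.1 (mt (imm_iff_det (hv.at _) b c).2 (a d)))
  have hs := imm_iff_sbm.1 hi
  obtain ⟨u, u1, -, u3⟩ := leq_unit (leq_congr (hs.leq (hw.at x) h2) (.of_forall fun _ => rfl)
    (h3.mono fun _ a => a.symm)) h1
  obtain ⟨C₁, d1, d2⟩ := bdd c1.cont
  obtain ⟨C₂, d3, d4⟩ := bdd u1.cont
  refine ⟨_, _, K * C₁ * C * C₂ ^ (k + 1), he, he', (hs.ev (hw.at x)
    (b2.and (c2.and (u3.and (d2.and d4))))).mono ?_⟩
  rintro _ ⟨y, ⟨k1, k2, k3, k4, k5⟩, rfl⟩ η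
  refine (k1 η).trans (mul_le_mul_of_nonneg_right ?_ (by positivity))
  rw [k2, k3, norm_mul, norm_mul]
  calc _ ≤ K * (C₁ * (C₂ * ‖ζ (w y)‖)) * (C * (C₂ * ‖ζ (w y)‖) ^ k) := by gcongr
    _ = _ := by ring

theorem drop_of (_ : DIV) : DROP := drop

theorem bnd_loc {f : X → Y} {D : Set X} {x : X} (hf : HolM n p f) (hD : Hy n D)
    (h : ∃ᶠ y in 𝓝 x, Sbm n p f y) :
    ∃ j, ∀ᶠ y in 𝓝 x, y ∈ D → ∀ k, j ≤ k → ∀ ζ, LEq n D y ζ → ¬ DV n p f k ζ y := by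
  have he := at_chart (n := n) x
  have he' := at_chart (n := p) (f x)
  set e := chartAt (Cm n) x
  set e' := chartAt (Cm p) (f x)
  have h0 := (at_near he).and (hf.cont.continuousAt.eventually (at_near he'))
  obtain ⟨I, hI⟩ : ∃ I, ¬ ∀ᶠ y in 𝓝 x, minor f e e' I y = 0 := not_forall.1 fun c => by
    obtain ⟨y, a, b, d⟩ := (h.and_eventually (h0.and (eventually_all.2 c))).exists
    exact (a.minor b.1 b.2).elim fun I k => k (d I)
  obtain ⟨ζ₀, h1⟩ := hD x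
  obtain ⟨j, hj⟩ := Hp.ord h1 (hol_minor (hf.at x) he he' I) hI
  refine ⟨j, ?_⟩
  filter_upwards [hj, h0, h1.near] with y a b c hy k hk ζ hζ hV
  obtain ⟨e₁, e₁', C, a1, a2, a3, a4⟩ := hV.abs
  obtain ⟨K, b1, b2⟩ := tr (w := fun x => x) (v := fun y => y) (hf.at _) (hf.at _) (holM_id.at _)
    (holM_id.at _) (.of_forall fun _ => rfl) (imm_id y) b.1 b.2 a1 a2 (fun y => by positivity) a4
  obtain ⟨u, u1, -, u3⟩ := leq_unit c hζ
  obtain ⟨C₁, d1, d2⟩ := bdd (hf.hol (a := fun y => (dfM (fun y => y) e₁' e' y).det)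
    (hol_det (hol_dfM (holM_id.at _) a2 b.2))).cont
  obtain ⟨C₂, d3, d4⟩ := bdd u1.cont
  refine a hy ⟨K * C₁ * (C * C₂ ^ k), ?_⟩
  filter_upwards [b2, u3, d2, d4, c.hol.cont.norm.eventually
    (gt_mem_nhds (show ‖ζ₀ y‖ < 1 by rw [c.mem.2 hy]; simp))] with z k1 k2 k3 k4 k5
  refine (k1 fun b => Pi.single (I b) 1).trans ?_
  have k6 : ‖ζ₀ z‖ ^ k ≤ ‖ζ₀ z‖ ^ j := pow_le_pow_of_le_one (norm_nonneg _) k5.le hk
  simp only [Pi.norm_single, norm_one, Finset.prod_const_one, mul_one]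
  rw [k2, norm_mul, mul_pow]
  calc _ ≤ K * C₁ * (C * (C₂ ^ k * ‖ζ₀ z‖ ^ j)) := by gcongr
    _ = _ := by ring

theorem bnd : BND := by
  intro n p M₀ N hN
  have hf := N.ok.fibn.hol
  have h1 : ∀ l, ∃ j, ∀ y ∈ N.G l, ∀ k, j ≤ k → ∀ ζ, LEq n (N.G l) y ζ → ¬ DV n p N.f k ζ y := by
    intro l
    choose j hj using fun x => bnd_loc (x := x) hf (hy_of_snc N.ok.snc l)
      ((mem_closure_iff_frequently.1 (snc_dense_off N.ok.snc x)).mono fun y hy =>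
        (hN.reg _ (N.pre y hy)).1.sbm hf N.ok.snc rfl)
    obtain ⟨T, hT⟩ := CompactSpace.elim_nhds_subcover _ hj
    refine ⟨T.sup j, fun y hy k hk => ?_⟩
    obtain ⟨x, a, b⟩ := mem_iUnion₂.1 (hT.ge (mem_univ y))
    exact b hy k ((Finset.le_sup a).trans hk)
  choose j hj using h1
  exact ⟨Finset.univ.sup j, fun l _ x hx => hj l x hx _ (Finset.le_sup (Finset.mem_univ l))⟩

theorem bnd_of (_ : ORD) (_ : REGO) : BND := bnd

end Vale.Agent.P281Z.Nt
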