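import Vale.Agent.P281Z.Nt.Bc
import Vale.Agent.P281Z.Nt.Drop

/-!
# P281, block NEAT: neat models exist
-/

open scoped Manifold ContDiff Topology
open Set Filter
open Vale.Agent.P272.K (Cm Chart At)
open Vale.Agent.P277Z (Hol at_chart)
open Vale.Agent.P277Z.Slc (LEq Snc Ind dd)

noncomputable section

namespace Vale.Agent.P281Z.Nt

theorem up_of (hL : RESL) (hI : IDL) (hR : REM) : UP := by
  intro n p M₀ N Z hM hZ hA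
  obtain ⟨I, rfl⟩ := hI p N.Y Z hZ.1
  obtain ⟨S⟩ := hL p N.Y _ N.E I N.snc hZ.2
  obtain ⟨I', e, hl⟩ := S.lift
  obtain ⟨R, f₁, h1, h2, h3⟩ := core hL N.ok (e ▸ S.md) hl
  obtain ⟨B, hu⟩ := N.sq.mu
  obtain ⟨B', hv⟩ := N.sq.mv
  have hw : Modif n R.w (N.f ⁻¹' I.Z) := e ▸ R.md
  have ho : ∀ x, x ∈ off R.G₁ ↔ R.w x ∈ off N.G ∧ N.f (R.w x) ∉ I.Z := e ▸ R.off
  have hd : ∀ x, N.f (R.w x) ∉ I.Z → ∀ k, x ∈ R.G₁ k →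
      ∃ l, ∀ᶠ z in 𝓝 x, z ∈ R.G₁ k ↔ R.w z ∈ N.G l := e ▸ R.old
  obtain ⟨δ₁, a1, a2, a3⟩ := coef n M₀.X R.V₁ (fun x => N.u (R.w x)) _ _ M₀.G M₀.δ R.G₁
    (hu.hol.comp hw.hol) hM.snc R.snc R.conn hM.bdry fun x hx =>
      ⟨N.sq.log.sub _ ((ho x).1 hx).1, .comp (hu.hol.at _) (hw.hol.at _) (by_contra fun k =>
        (N.sq.log.exc _ k).elim fun l b => ((ho x).1 hx).1 l b.2) (hw.imm ((ho x).1 hx).2)⟩
  refine ⟨⟨⟨R.V₁, S.V₁, f₁, _, R.G₁, δ₁⟩, fun x => N.u (R.w x), fun y => N.v (S.w y), S.r, S.G₁,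
    ⟨h2, h3, R.snc, a1⟩, ⟨⟨_, hu.comp hR hw⟩, ⟨_, hv.comp hR S.md⟩,
      fun x => (N.sq.comm _).trans (congrArg N.v (h1 x)), a3⟩, a2, S.snc,
    fun x hx => (S.off _).2 (h1 x ▸ ⟨N.pre _ ((ho x).1 hx).1, ((ho x).1 hx).2⟩),
    fun k => R.kah (N.kahX k), fun k => S.kah (N.kahY k), fun k => R.prj (N.prjX k),
    fun k => S.prj (N.prjY k)⟩, R.w, S.w, ⟨R.conn, S.conn, fun y hy => ?_⟩,
    ⟨hw, S.md, fun _ => rfl, fun _ => rfl, h1, ho, S.off, fun y hy => ?_⟩⟩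
  · obtain ⟨b1, b2⟩ := (S.off y).1 hy
    obtain ⟨c1, c2, c3⟩ := hA _ b1 b2
    have b3 : ∀ x, f₁ x = y → N.f (R.w x) = S.w y := fun x hx => hx ▸ h1 x
    have b4 : ∀ x, f₁ x = y → N.f (R.w x) ∉ I.Z := fun x hx => (b3 x hx).symm ▸ b2
    exact ⟨regp n p _ _ _ _ N.f f₁ R.w S.w _ _ N.G R.G₁ y N.ok.fibn.hol h3.hol hw.hol S.md.hol h1
      N.ok.snc R.snc (S.md.imm b2) (fun x hx => ⟨hw.imm (b4 x hx), hd x (b4 x hx)⟩) c1,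
      .comp (f := S.w) (hv.hol.at _) (S.md.hol.at _) c2 (S.md.imm b2), fun x hx =>
      .comp (f := R.w) (hu.hol.at _) (hw.hol.at _) (c3 _ (b3 x hx)) (hw.imm (b4 x hx))⟩
  · obtain ⟨j, b1, b2⟩ := S.mem_Z.1 hy
    exact ⟨j, b2, fun z hz => S.mem_Z.2 ⟨j, b1, hz⟩⟩

/-- the trivial model -/
def Md.triv {n p : ℕ} {M : Fb n p} (h : M.Ok) : Md M :=
  ⟨M, id, id, 0, Fin.elim0, h, ⟨⟨_, modif_id⟩, ⟨_, modif_id⟩, fun _ => rfl,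
    (lrefl n M.X M.κ M.G M.δ h.snc).2⟩, fun l => .inr (.inr ⟨l, rfl⟩), snc_empty _ _,
    fun _ _ l => l.elim0, id, id, id, id⟩

theorem neatk_of (hU : UP) (hR : REM) (hG : GEN) : NEATK := by
  intro n p M₀ Q hM hQ
  have key : ∀ (k : ℕ) (N : Md M₀), N.Good → (∀ y ∈ off N.E, N.v y ∉ Q) → N.Ord k →
      ∃ N : Md M₀, N.Good ∧ (∀ l, ¬ N.Bad l) ∧ ∀ y ∈ off N.E, N.v y ∉ Q := by
    intro k
    induction k with
    | zero =>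
      refine fun N h1 h2 h3 => ⟨N, h1, fun l hl => ?_, h2⟩
      obtain ⟨x, hx, -⟩ := hl.1
      obtain ⟨ζ, hζ⟩ := Cf.hy N.ok.snc l x
      exact h3 l hl x hx ζ hζ (dv0 n p _ _ _ ζ x N.ok.fibn.hol)
    | succ k ih =>
      intro N h1 h2 h3
      have a1 := fun l : {l // N.Bad l} =>
        sml n p _ _ N.f _ N.ok.fibn.hol (Cf.hy N.ok.snc l.1) l.2.2
      have a2 : ∀ l : {l // N.Bad l}, Thin p (N.f '' N.G l) := fun l =>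
        ⟨hR n p _ _ _ _ N.ok.fibn.hol (snc_thin N.ok.snc _).1,
          interior_eq_empty_iff_dense_compl.1 (a1 l).2⟩
      have a3 := smu p N.Y _ _ (fun l => (a2 l).closed) fun l => (a1 l).1
      obtain ⟨N₁, w, v, b1, b2⟩ := hU n p M₀ N _ hM (.iUnion a2) fun y hy _ => h1.reg y hy
      refine ih N₁ b1 (fun y hy => b2.hv y ▸ h2 _ ((b2.offE y).1 hy).1) fun l₁ c1 x c2 ζ₁ c3 c4 => ?_
      obtain ⟨y, ⟨d1, d2, l, d3, d4⟩, d5, d6⟩ := ((down n p M₀ N₁ N _ w v h1 b1 b2 l₁ c1 x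
        c2).and_eventually ((DV.near N₁.ok.fibn.hol.cont.continuousAt c4).and c3.near)).exists
      obtain ⟨ζ, hζ⟩ := Cf.hy N.ok.snc l (w y)
      refine h3 l d3 _ (d4.self_of_nhds.1 d1) ζ hζ (drop n p _ _ _ _ N.f N₁.f w v _ _ ζ ζ₁ y k
        N.ok.fibn.hol N₁.ok.fibn.hol b2.mw.hol b2.mv.hol b2.comm d2 d1 d6 hζ d4
        (d4.mono fun z e1 e2 => ?_) d5)
      obtain ⟨j, e3, e4⟩ := b2.div (N₁.f z) (mem_iUnion.2 ⟨⟨l, d3⟩, _, e1.1 e2, b2.comm z⟩)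
      exact nimm p _ _ v _ _ b2.mv.hol a3 (Cf.hy N₁.snc j) e4 _ e3
  obtain ⟨Q', a1, a2⟩ := hG n p M₀.X M₀.Y M₀.f M₀.κ M₀.G hM.fibn.hol hM.snc
  obtain ⟨N, w, v, b1, b2⟩ := hU n p M₀ (.triv hM) _ hM (hQ.union a1) fun y _ hy =>
    ⟨a2 y fun k => hy (.inr k), imm_id y, fun x _ => imm_id x⟩
  obtain ⟨k, hk⟩ := bnd n p M₀ N b1
  exact key k N b1 (fun y hy k => ((b2.offE y).1 hy).2 (.inl (b2.hv y ▸ k :))) hk

theorem neatf_of (h : NEATK) : NEATF := by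
  intro n p M Q hM hQ
  obtain ⟨N, h1, h2, h3⟩ := h n p M Q hM hQ
  obtain ⟨B, hu⟩ := N.sq.mu
  refine ⟨N.toFb, N.u, N.v, N.r, N.E, N.ok, N.sq, N.kahX, N.kahY, N.prjX, N.prjY, h1.connG, N.coef,
    N.snc, h1.connE, fun y hy => ⟨h3 y hy, (h1.reg y hy).2.1, (h1.reg y hy).1, (h1.reg y hy).2.2⟩,
    N.pre, fun l => ?_, vert N.ok hM N.sq h1.connG (snc_thin_off N.snc) fun x hx =>
      (h1.reg _ (not_not.1 hx)).2.2 x rfl⟩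
  refine (genc n _ _ N.u _ _ _ _ _ _ hu.hol hM.snc N.ok.snc h1.connG N.sq.log l).imp_right
    fun a => ?_
  obtain ⟨x, hx, k⟩ : ∃ x ∈ N.G l, NE n p N.f (N.G l) x := by
    by_contra k
    exact h2 l ⟨a.1, fun x hx c => k ⟨x, hx, c⟩⟩
  exact ⟨x, hx, nei n p _ _ _ _ N.ok.fibn.hol x hx k⟩

end Vale.Agent.P281Z.Nt
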