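import Vale.Agent.P281Z.Rs.All
import Vale.Agent.P281Z.Nt.Resl
import Vale.Agent.P281Z.Nt.Blow
import Vale.Agent.P281Z.Nt.Graph
import Vale.Agent.P281Z.Nt.Up
import Vale.Agent.P277Z.Pos.All

/-!
# P281, blocks LOGM, BC, NEAT: the theorems
-/

namespace Vale.Agent.P281Z

theorem Nt.resl : Nt.RESL := Nt.resl_of P277Z.Hir.stMainL P277Z.Pos.kodA Nt.blow

theorem Nt.logs : Nt.LOGS := Nt.logs_of Nt.resl idl rem

theorem Nt.graph : Nt.GRAPH := Nt.graph_of Rs.res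

theorem Nt.up : Nt.UP := Nt.up_of Nt.resl idl rem

theorem logm : LOGM := Nt.logm_of Nt.logs

theorem bc : BC := Nt.bc_of Nt.graph Nt.logs

end Vale.Agent.P281Z
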