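import Vale.Agent.P281Z.Nt.Hyp
import Vale.Agent.P281Z.Mf.Adj

/-!
# P281, block LOGM: the coefficients of a log model
-/

open scoped Manifold ContDiff Topology
open Set Filter
open Vale.Agent.P272.K (Cm Chart At)
open Vale.Agent.P277Z (Hol at_chart)
open Vale.Agent.P277Z.Slc (LEq Snc Ind dd)
open Vale.Agent.P277Z.Hir (Cpb)
open Vale.Agent.P281Z.Rs.Cmp (Eqv eqv_leq)

set_option linter.unusedSectionVars false

noncomputable section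

namespace Vale.Agent.P281Z.Nt

namespace Cf

section cpb
variable {T : Type} {F : Filter T} {f g h : T → ℝ}

theorem of_eq (e : ∀ z, f z = g z) : Cpb F f g :=
  ⟨1, one_pos, .of_forall fun z => by rw [e z, one_mul]; exact ⟨le_rfl, le_rfl⟩⟩

theorem symm (a : Cpb F f g) : Cpb F g f := a.imp fun _ b => ⟨b.1, b.2.mono fun _ => And.symm⟩

theorem trans (a : Cpb F f g) (b : Cpb F g h) : Cpb F f h := by
  obtain ⟨C, h1, h2⟩ := a
  obtain ⟨D, h3, h4⟩ := b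
  refine ⟨C * D, mul_pos h1 h3, ?_⟩
  filter_upwards [h2, h4] with z e1 e2
  exact ⟨e1.1.trans (by rw [mul_assoc]; exact mul_le_mul_of_nonneg_left e2.1 h1.le),
    e2.2.trans (by rw [mul_comm C, mul_assoc]; exact mul_le_mul_of_nonneg_left e1.2 h3.le)⟩

theorem mono {F' : Filter T} (a : Cpb F f g) (e : F' ≤ F) : Cpb F' f g :=
  a.imp fun _ b => ⟨b.1, b.2.filter_mono e⟩

theorem prod {ι : Type} [Fintype ι] {f g : ι → T → ℝ} (a : ∀ i, Cpb F (f i) (g i))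
    (hf : ∀ i z, 0 ≤ f i z) (hg : ∀ i z, 0 ≤ g i z) :
    Cpb F (fun z => ∏ i, f i z) fun z => ∏ i, g i z := by
  choose C h1 h2 using a
  refine ⟨∏ i, C i, Finset.prod_pos fun i _ => h1 i, (eventually_all.2 h2).mono fun z e => ?_⟩
  simp only [← Finset.prod_mul_distrib]
  exact ⟨Finset.prod_le_prod (fun i _ => hf i z) fun i _ => (e i).1,
    Finset.prod_le_prod (fun i _ => hg i z) fun i _ => (e i).2⟩

theorem exp_le [F.NeBot] {a b : ℝ} (h0 : Tendsto f F (𝓝 0)) (h1 : ∀ᶠ z in F, 0 < f z)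
    (h : Cpb F (fun z => f z ^ a) fun z => f z ^ b) : b ≤ a := by
  by_contra! hlt
  obtain ⟨C, -, h2⟩ := h
  have h3 : Tendsto (fun z => C * f z ^ (b - a)) F (𝓝 (C * 0)) :=
    (h0.rpow_const_nhds_zero (sub_pos.2 hlt)).const_mul C
  rw [mul_zero] at h3
  obtain ⟨z, z1, z2, z3⟩ := (h1.and (h2.and (h3.eventually (gt_mem_nhds one_pos)))).exists
  have h4 : f z ^ a ≤ C * f z ^ b := z2.1
  rw [← sub_add_cancel b a, Real.rpow_add z1, ← mul_assoc] at h4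
  exact absurd h4 (not_le.2 (mul_lt_of_lt_one_left (Real.rpow_pos_of_pos z1 a) z3))

end cpb

variable {n : ℕ} {X X₁ : Type} [TopologicalSpace X] [ChartedSpace (Cm n) X] [TopologicalSpace X₁]
  [ChartedSpace (Cm n) X₁] {x : X₁} {a b : X₁ → ℂ} {D D' : Set X₁}

theorem of_eqv (h : Eqv n x a b) (r : ℝ) : Cpb (𝓝 x) (fun y => ‖a y‖ ^ r) fun y => ‖b y‖ ^ r := by
  obtain ⟨c, h1, h2, h3⟩ := h
  have h4 : 0 < ‖c x‖ ^ r := Real.rpow_pos_of_pos (norm_pos_iff.2 h2) r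
  have h5 : ContinuousAt (fun y => ‖c y‖ ^ r) x :=
    h1.continuousAt.norm.rpow_const (.inl (norm_ne_zero_iff.2 h2))
  refine ⟨‖c x‖ ^ r + 1 + 2 / ‖c x‖ ^ r, by positivity, ?_⟩
  filter_upwards [h3, h5.eventually (gt_mem_nhds (lt_add_one _)),
    h5.eventually (lt_mem_nhds (half_lt_self h4))] with y e1 e2 e3
  have h6 : 0 ≤ ‖b y‖ ^ r := by positivity
  have h7 : 0 < 2 / ‖c x‖ ^ r := by positivity
  rw [e1, norm_mul, Real.mul_rpow (norm_nonneg _) (norm_nonneg _)]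
  refine ⟨mul_le_mul_of_nonneg_right (by linarith) h6, ?_⟩
  rw [← mul_assoc]
  refine le_mul_of_one_le_left h6 ?_
  have h8 : 2 / ‖c x‖ ^ r * (‖c x‖ ^ r / 2) = 1 := by field_simp
  nlinarith

theorem unit (h : LEq n D x a) (hx : x ∉ D) (r : ℝ) : Cpb (𝓝 x) (fun y => ‖a y‖ ^ r) fun _ => 1 :=
  trans (of_eqv (b := fun _ => 1) ⟨a, h.hol, mt h.mem.1 hx, .of_forall fun _ => (mul_one _).symm⟩ r)
    (of_eq fun _ => by rw [norm_one, Real.one_rpow])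

variable [IsManifold 𝓘(ℂ, Cm n) ω X] [IsManifold 𝓘(ℂ, Cm n) ω X₁]

/-- a hypersurface in a hypersurface -/
theorem eqv_of_sub (h : LEq n D x a) (h' : LEq n D' x b) (hx : x ∈ D)
    (hs : ∀ᶠ y in 𝓝 x, y ∈ D → y ∈ D') : Eqv n x b a ∧ ∀ᶠ y in 𝓝 x, y ∈ D' → y ∈ D := by
  obtain ⟨c, h1, h2⟩ := Hp.div h h'.hol ((hs.and h'.1).mono fun y k hy => k.2.2 (k.1 hy))
  have h3 : c x ≠ 0 := fun e => (h'.2 _ (at_chart x)).2 (h'.mem.2 (hs.self_of_nhds hx)) (by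
    have k := (P277Z.Slc.dd_congr h2 (at_chart x)).trans
      (P277Z.Slc.dd_mul h1 h.hol (h.mem.2 hx) (at_chart x))
    rw [e] at k
    exact k.trans (ContinuousLinearMap.ext fun v => zero_mul _))
  refine ⟨⟨c, h1, h3, h2⟩, ?_⟩
  filter_upwards [h2, h.1, h'.1, h1.continuousAt.eventually_ne h3] with y e1 e2 e3 e4 hy
  exact e2.1 ((mul_eq_zero.1 (e1 ▸ e3.2 hy)).resolve_left e4)

theorem an_imm {u : X₁ → X} (hu : HolM n n u) : An n {x | ¬ Imm n n u x} := fun x => by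
  have he := at_chart (n := n) x
  have he' := at_chart (n := n) (u x)
  refine ⟨1, fun _ y => (dfM u (chartAt (Cm n) x) (chartAt (Cm n) (u x)) y).det,
    fun _ => hol_det fun a b => hol_dfM (hu.at x) he he' a b, ?_⟩
  filter_upwards [at_near he, hu.cont.continuousAt.eventually (at_near he')] with y k k'
  rw [imm_iff_det (hu.at y) k k', not_not, forall_const]

variable [T2Space X₁] [SecondCountableTopology X₁] {κ κ₁ : Type} [Fintype κ] [Fintype κ₁]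
  {G : κ → Set X} {G₁ : κ₁ → Set X₁} {u : X₁ → X}

theorem hy (hG : Snc n G₁) (k : κ₁) : Hy n (G₁ k) := fun y => (hG y).elim fun ζ h => ⟨ζ k, h.1 k⟩

/-- a function which vanishes at `x`, and only on the divisors, vanishes on a component -/
theorem zero_comp (hG : Snc n G₁) (hb : Hol n b x) (h0 : b x = 0)
    (h : ∀ᶠ y in 𝓝 x, y ∈ off G₁ → b y ≠ 0) : ∃ k, x ∈ G₁ k ∧ ∀ᶠ y in 𝓝 x, y ∈ G₁ k → b y = 0 := by
  obtain ⟨ζ, hζ, -⟩ := hG x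
  obtain ⟨e, c, -, h2, h3⟩ := Hp.mon hG hζ hb h
  obtain ⟨k, -, hk⟩ := Finset.prod_eq_zero_iff.1
    ((mul_eq_zero.1 (h3.self_of_nhds.symm.trans h0)).resolve_left h2)
  obtain ⟨k1, k2⟩ := pow_eq_zero_iff'.1 hk
  refine ⟨k, (hζ k).mem.1 k1, ?_⟩
  filter_upwards [h3, (hζ k).1] with y e1 e2 e3
  rw [e1, Finset.prod_eq_zero (Finset.mem_univ k) (by rw [e2.2 e3, zero_pow k2]), mul_zero]

theorem exc (hu : HolM n n u) (hG₁ : Snc n G₁) (hc : ∀ k, IsConnected (G₁ k))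
    (h : ∀ x ∈ off G₁, Imm n n u x) (hx : ¬ Imm n n u x) :
    ∃ k, x ∈ G₁ k ∧ ∀ y ∈ G₁ k, ¬ Imm n n u y := by
  have he := at_chart (n := n) x
  have he' := at_chart (n := n) (u x)
  have h1 : ∀ᶠ y in 𝓝 x, Imm n n u y ↔
      (dfM u (chartAt (Cm n) x) (chartAt (Cm n) (u x)) y).det ≠ 0 := by
    filter_upwards [at_near he, hu.cont.continuousAt.eventually (at_near he')] with y k k'
      using imm_iff_det (hu.at y) k k'
  obtain ⟨k, k1, k2⟩ := zero_comp hG₁ (hol_det fun a b => hol_dfM (hu.at x) he he' a b)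
    (not_not.1 (mt h1.self_of_nhds.2 hx)) (h1.mono fun y e hy => e.1 (h y hy))
  exact ⟨k, k1, Hp.idh (hc k).isPreconnected (hy hG₁ k) (an_imm hu) k1
    ((h1.and k2).mono fun y e hy i => e.1.1 i (e.2 hy))⟩

theorem ex_comp (hu : HolM n n u) (hG : Snc n G) (hG₁ : Snc n G₁) (hc : ∀ k, IsConnected (G₁ k))
    (hs : ∀ x ∈ off G₁, u x ∈ off G) {l : κ} (hx : u x ∈ G l) :
    ∃ k, x ∈ G₁ k ∧ ∀ y ∈ G₁ k, u y ∈ G l := by
  obtain ⟨ζ, hζ, -⟩ := hG (u x)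
  have h1 := hu.cont.continuousAt.eventually (hζ l).1
  obtain ⟨k, k1, k2⟩ := zero_comp hG₁ (hu.hol (hζ l).hol) ((hζ l).mem.2 hx)
    (h1.mono fun y e hy i => hs y hy l (e.1 i))
  exact ⟨k, k1, Hp.idh (T := u ⁻¹' G l) (hc k).isPreconnected (hy hG₁ k)
    ((snc_thin hG l).an.pre hu) k1 ((h1.and k2).mono fun y e hy => e.1.1 (e.2 hy))⟩

theorem back (hu : HolM n n u) (hG : Snc n G) (hG₁ : Snc n G₁) (hi : Imm n n u x) {k : κ₁} {l : κ}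
    (hx : x ∈ G₁ k) (h : ∀ y ∈ G₁ k, u y ∈ G l) : ∀ᶠ y in 𝓝 x, u y ∈ G l → y ∈ G₁ k := by
  obtain ⟨ζ, hζ, -⟩ := hG (u x)
  obtain ⟨ζ₁, hζ₁, -⟩ := hG₁ x
  exact (eqv_of_sub (hζ₁ k) ((imm_iff_sbm.1 hi).leq (hu.at x) (hζ l)) hx (.of_forall h)).2

theorem uniq (hu : HolM n n u) (hG : Snc n G) (hG₁ : Snc n G₁) (hi : Imm n n u x) {k : κ₁}
    {l l' : κ} (hx : x ∈ G₁ k) (h : ∀ y ∈ G₁ k, u y ∈ G l) (h' : ∀ y ∈ G₁ k, u y ∈ G l') :
    l' = l := by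
  by_contra e
  obtain ⟨y, y1, y2⟩ := (((imm_iff_sbm.1 hi).freq (hu.at x) (Hp.genp hG (h x hx))).and_eventually
    (back hu hG hG₁ hi hx h)).exists
  exact y1.2 l' e (h' y (y2 y1.1))

theorem uniq₁ (hu : HolM n n u) (hG : Snc n G) (hG₁ : Snc n G₁) (hi : Imm n n u x) {k k' : κ₁}
    {l : κ} (hx : x ∈ G₁ k) (hx' : x ∈ G₁ k') (h : ∀ y ∈ G₁ k, u y ∈ G l)
    (h' : ∀ y ∈ G₁ k', u y ∈ G l) : k' = k := by
  by_contra e
  obtain ⟨y, y1, y2⟩ := ((Hp.genp hG₁ hx).and_eventually (back hu hG hG₁ hi hx' h')).exists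
  exact y1.2 k' e (y2 (h y y1.1))

/-- the comparison at a point where `u` is an isomorphism -/
theorem iso (hu : HolM n n u) (hG : Snc n G) (hG₁ : Snc n G₁) (hc : ∀ k, IsConnected (G₁ k))
    (hs : ∀ x ∈ off G₁, u x ∈ off G) (hi : Imm n n u x) {δ : κ → ℝ} {δ₁ : κ₁ → ℝ}
    (hδ : ∀ k, x ∈ G₁ k → (∃ l, (∀ y ∈ G₁ k, u y ∈ G l) ∧ δ₁ k = δ l) ∨
      ((¬ ∃ l, ∀ y ∈ G₁ k, u y ∈ G l) ∧ δ₁ k = 0))
    {ζ : κ → X → ℂ} {ζ₁ : κ₁ → X₁ → ℂ} (hζ : ∀ l, LEq n (G l) (u x) (ζ l))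
    (hζ₁ : ∀ k, LEq n (G₁ k) x (ζ₁ k)) :
    Cpb (𝓝 x) (fun y => ∏ l, ‖ζ l (u y)‖ ^ δ l) fun y => ∏ k, ‖ζ₁ k y‖ ^ δ₁ k := by
  classical
  let F : κ₁ → κ → X₁ → ℝ := fun k l y =>
    if x ∈ G₁ k ∧ ∀ z ∈ G₁ k, u z ∈ G l then ‖ζ₁ k y‖ ^ δ l else 1
  have hF : ∀ k l y, 0 ≤ F k l y := fun k l y => by
    simp only [F]
    split_ifs <;> positivity
  have hη := fun l => (imm_iff_sbm.1 hi).leq (hu.at x) (hζ l)
  have h1 : ∀ l, Cpb (𝓝 x) (fun y => ‖ζ l (u y)‖ ^ δ l) fun y => ∏ k, F k l y := fun l => by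
    by_cases hx : u x ∈ G l
    · obtain ⟨k, k1, k2⟩ := ex_comp hu hG hG₁ hc hs hx
      refine trans (of_eqv (eqv_of_sub (hζ₁ k) (hη l) k1 (.of_forall k2)).1 _) (of_eq fun y => ?_)
      rw [Finset.prod_eq_single k (fun k' _ e => if_neg fun c =>
        e (uniq₁ hu hG hG₁ hi k1 c.1 k2 c.2)) fun c => absurd (Finset.mem_univ k) c]
      exact (if_pos ⟨k1, k2⟩).symm
    · exact trans (unit (hη l) hx _) (of_eq fun y =>
        (Finset.prod_eq_one fun k _ => if_neg fun c => hx (c.2 x c.1)).symm)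
  have h2 : ∀ k, Cpb (𝓝 x) (fun y => ‖ζ₁ k y‖ ^ δ₁ k) fun y => ∏ l, F k l y := fun k => by
    by_cases hx : x ∈ G₁ k
    · refine of_eq fun y => ?_
      rcases hδ k hx with ⟨l, k1, k2⟩ | ⟨k1, k2⟩
      · rw [Finset.prod_eq_single l (fun l' _ e => if_neg fun c =>
          e (uniq hu hG hG₁ hi hx k1 c.2)) fun c => absurd (Finset.mem_univ l) c, k2]
        exact (if_pos ⟨hx, k1⟩).symm
      · rw [k2, Real.rpow_zero]
        exact (Finset.prod_eq_one fun l _ => if_neg fun c => k1 ⟨l, c.2⟩).symm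
    · exact trans (unit (hζ₁ k) hx _) (of_eq fun y =>
        (Finset.prod_eq_one fun l _ => if_neg fun c => hx c.1).symm)
  exact trans (prod h1 (fun _ _ => by positivity) fun l y => Finset.prod_nonneg fun k _ => hF k l y)
    (trans (of_eq fun y => Finset.prod_comm) (symm (prod h2 (fun _ _ => by positivity)
      fun k y => Finset.prod_nonneg fun l _ => hF k l y)))

/-- at a general point only one factor matters -/
theorem single {k : κ₁} (hx : ∀ k', k' ≠ k → x ∉ G₁ k') {ζ₁ : κ₁ → X₁ → ℂ}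
    (hζ₁ : ∀ k, LEq n (G₁ k) x (ζ₁ k)) (δ : κ₁ → ℝ) :
    Cpb (𝓝 x) (fun y => ∏ k, ‖ζ₁ k y‖ ^ δ k) fun y => ‖ζ₁ k y‖ ^ δ k := by
  classical
  refine trans (prod (g := fun k' y => if k' = k then ‖ζ₁ k y‖ ^ δ k else 1) (fun k' => ?_)
    (fun _ _ => by positivity) fun _ _ => by split_ifs <;> positivity) (of_eq fun y => by simp)
  by_cases e : k' = k
  · subst e
    exact of_eq fun y => (if_pos rfl).symm
  · exact trans (unit (hζ₁ k') (hx k' e) _) (of_eq fun y => (if_neg e).symm)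

end Cf

open Cf

/-- **COEF** -/
theorem coef : COEF := by
  intro n V V₁ u κ κ₁ _ _ G δ G₁ hu hG hG₁ hc hδ h
  classical
  let δ₁ : κ₁ → ℚ := fun k => if ∀ x ∈ G₁ k, ¬ Imm n n u x then 1 else
    if e : ∃ l, ∀ x ∈ G₁ k, u x ∈ G l then δ e.choose else 0
  have h1 : ∀ k, δ₁ k = 1 ∨ δ₁ k = 0 ∨ ∃ l, δ₁ k = δ l := fun k => by
    simp only [δ₁]
    split_ifs
    · exact .inl rfl
    · exact .inr (.inr ⟨_, rfl⟩)
    · exact .inr (.inl rfl)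
  refine ⟨δ₁, fun k => ?_, h1, fun x hx => (h x hx).1, fun x hx => ?_, fun x hx ζ ζ₁ hζ hζ₁ =>
    Cf.mono (iso hu hG hG₁ hc (fun x hx => (h x hx).1) hx (δ := fun l => δ l) (δ₁ := fun k => δ₁ k)
      (fun k hk => ?_) hζ hζ₁) inf_le_left⟩
  · rcases h1 k with e | e | ⟨l, e⟩ <;> rw [e]
    · exact ⟨zero_le_one, le_rfl⟩
    · exact ⟨le_rfl, zero_le_one⟩
    · exact hδ l
  · obtain ⟨k, k1, k2⟩ := exc hu hG₁ hc (fun x hx => (h x hx).2) hx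
    exact ⟨k, if_pos k2, k1⟩
  · have h2 : ¬ ∀ x ∈ G₁ k, ¬ Imm n n u x := fun c => c x hk hx
    by_cases e : ∃ l, ∀ x ∈ G₁ k, u x ∈ G l
    · exact .inl ⟨_, e.choose_spec, congrArg _ ((if_neg h2).trans (dif_pos e))⟩
    · exact .inr ⟨e, by rw [show δ₁ k = 0 from (if_neg h2).trans (dif_neg e), Rat.cast_zero]⟩

/-- **GENC** -/
theorem genc : GENC := by
  intro n V V₁ u κ κ₁ _ _ G δ G₁ δ₁ hu hG hG₁ hc h k
  classical
  by_cases h0 : ∀ x ∈ G₁ k, ¬ Imm n n u x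
  · obtain ⟨x₀, hx₀⟩ := (hc k).nonempty
    obtain ⟨x, x1, x2⟩ := (Hp.genp hG₁ hx₀).exists
    obtain ⟨l, l1, l2⟩ := h.exc x (h0 x x1)
    exact .inl ⟨h0, (not_not.1 fun e => x2 l e l2 : l = k) ▸ l1⟩
  push Not at h0
  obtain ⟨x₀, hx₀, hi₀⟩ := h0
  obtain ⟨x, ⟨x1, x2⟩, hi⟩ := ((Hp.genp hG₁ hx₀).and_eventually (hi₀.near (hu.at x₀))).exists
  obtain ⟨ζ, hζ, -⟩ := hG (u x)
  obtain ⟨ζ₁, hζ₁, -⟩ := hG₁ x
  have : (𝓝 x ⊓ 𝓟 (off G₁)).NeBot := mem_closure_iff_clusterPt.1 (snc_dense_off hG₁ x)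
  have key : ∀ r : ℚ, ((∃ l, (∀ y ∈ G₁ k, u y ∈ G l) ∧ r = δ l) ∨
      ((¬ ∃ l, ∀ y ∈ G₁ k, u y ∈ G l) ∧ r = 0)) → δ₁ k = r := fun r hr => by
    have h1 := iso hu hG hG₁ hc h.sub hi (δ := fun l => δ l) (δ₁ := fun _ => r) (fun k' hk' => by
      obtain rfl : k' = k := not_not.1 fun e => x2 k' e hk'
      exact hr.imp (fun ⟨l, a, b⟩ => ⟨l, a, congrArg _ b⟩) fun ⟨a, b⟩ =>
        ⟨a, by rw [b, Rat.cast_zero]⟩) hζ hζ₁
    have h2 := Cf.trans (Cf.symm (Cf.mono (single x2 hζ₁ fun k => δ₁ k) inf_le_left))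
      (Cf.trans (Cf.symm (h.iso x hi ζ ζ₁ hζ hζ₁))
        (Cf.mono (Cf.trans h1 (single x2 hζ₁ fun _ => r)) inf_le_left))
    have h3 : Tendsto (fun y => ‖ζ₁ k y‖) (𝓝 x ⊓ 𝓟 (off G₁)) (𝓝 0) := by
      have h4 := (hζ₁ k).hol.continuousAt.norm.tendsto
      rw [(hζ₁ k).mem.2 x1, norm_zero] at h4
      exact h4.mono_left inf_le_left
    have h4 : ∀ᶠ y in 𝓝 x ⊓ 𝓟 (off G₁), 0 < ‖ζ₁ k y‖ :=
      eventually_inf_principal.2 ((hζ₁ k).1.mono fun y e hy => norm_pos_iff.2 fun c => hy k (e.1 c))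
    exact Rat.cast_injective (α := ℝ) (le_antisymm (exp_le h3 h4 (Cf.symm h2)) (exp_le h3 h4 h2))
  refine .inr ⟨⟨x₀, hx₀, hi₀⟩, ?_⟩
  by_cases e : ∃ l, ∀ y ∈ G₁ k, u y ∈ G l
  · obtain ⟨l, hl⟩ := e
    exact .inr ⟨l, hl, key _ (.inl ⟨l, hl, rfl⟩)⟩
  · refine .inl ⟨⟨x, x1, fun l hl => ?_⟩, key _ (.inr ⟨e, rfl⟩)⟩
    obtain ⟨k', k1, k2⟩ := ex_comp hu hG hG₁ hc h.sub hl
    obtain rfl : k' = k := not_not.1 fun c => x2 k' c k1
    exact e ⟨l, k2⟩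

/-- **LREFL** -/
theorem lrefl : LREFL := fun _ _ _ _ _ _ _ =>
  ⟨modif_id, fun _ hx => hx, fun x hx => absurd (imm_id x) hx, fun _ _ _ _ hζ hζ₁ =>
    Cf.mono (Cf.prod (fun l => of_eqv (eqv_leq (hζ l) (hζ₁ l)) _) (fun _ _ => by positivity)
      fun _ _ => by positivity) inf_le_left⟩

end Vale.Agent.P281Z.Nt
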