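import Vale.Agent.P281Z.Nt.Sk2
import Vale.Agent.P281Z.Mf.Mod
import Vale.Agent.P277Z.Slc.Unit
import Vale.Agent.P281.H64.Gen.Spec

/-!
# P281, translation between the two languages
-/

open scoped Manifold ContDiff Topology
open Set Filter Function
open Vale.Agent.P272.K Vale.Agent.P281
open Vale.Agent.P281.J (HolAt dif IsLocalEq IsPrime IsSNC)
open Vale.Agent.P281.H713.TZ.S (IsModif)
open Vale.Agent.P277Z (Hol Nz at_chart hol_const)
open Vale.Agent.P277Z.Slc (Ind LEq Snc dd tr ind_iff_surj)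

set_option linter.unusedSectionVars false

noncomputable section

namespace Vale.Agent.P281Z.Nt

variable {n p : ℕ} {X Y : Type} [TopologicalSpace X] [ChartedSpace (Cm n) X] [TopologicalSpace Y]
  [ChartedSpace (Cm p) Y] [IsManifold 𝓘(ℂ, Cm n) ω X] [IsManifold 𝓘(ℂ, Cm p) ω Y]
  {f : X → Y} {x : X} {g : X → ℂ} {D : Set X} {e : Chart n X}

theorem hol_iff : Hol n g x ↔ HolAt (Cm n) g x := by
  refine ⟨fun h => ?_, fun h e he => ?_⟩
  · have he := at_chart (n := n) x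
    exact ((contMDiffAt_iff_contDiffAt.2 (h _ he).contDiffAt).comp x
      (chart_contMDiffAt he)).congr_of_eventuallyEq
        ((P277Z.At.left he).mono fun y k => congrArg g k.symm)
  · exact (contMDiffAt_iff_contDiffAt.1 (ContMDiffAt.comp_of_eq h
      (chart_symm_contMDiffAt he.1 he.mem_target) he.left_inv)).analyticAt

theorem dif_eq (h : Hol n g x) : dif (Cm n) g x = dd g (chartAt (Cm n) x) x := by
  refine ((hol_iff.1 h).mdifferentiableAt (by simp)).mfderiv.trans ?_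
  simp [writtenInExtChartAt, dd, Function.comp_def]
  rfl

theorem mfd_eq (h : HolA n p f x) : mfderiv 𝓘(ℂ, Cm n) 𝓘(ℂ, Cm p) f x =
    df f (chartAt (Cm n) x) (chartAt (Cm p) (f x)) x := by
  refine (h.mdifferentiableAt (by simp)).mfderiv.trans ?_
  simp [writtenInExtChartAt, df, Function.comp_def]
  rfl

theorem mfd_chart (he : At e x) :
    mfderiv 𝓘(ℂ, Cm n) 𝓘(ℂ, Cm n) e x = tr e (chartAt (Cm n) x) x := by
  refine ((chart_contMDiffAt he).mdifferentiableAt (by simp)).mfderiv.trans ?_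
  simp [writtenInExtChartAt, tr, Function.comp_def]
  rfl

theorem det_jacM {e' : Chart n X} (he : At e x) (he' : At e' x) :
    (jacM e e' x).det = (tr e' e x).det := by
  rw [ContinuousLinearMap.det, ← LinearMap.det_toMatrix']
  congr 1
  ext a b
  rw [jacM_eq, jmat_apply (transition_differentiableAt he he'), LinearMap.toMatrix'_apply]
  rfl

theorem imm_iff (h : HolA n p f x) :
    Imm n p f x ↔ Injective (mfderiv 𝓘(ℂ, Cm n) 𝓘(ℂ, Cm p) f x) := by
  rw [mfd_eq h]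
  exact ⟨fun k => k _ _ (at_chart _) (at_chart _), .of_chart h (at_chart _) (at_chart _)⟩

theorem sbm_iff (h : HolA n p f x) :
    Sbm n p f x ↔ Surjective (mfderiv 𝓘(ℂ, Cm n) 𝓘(ℂ, Cm p) f x) := by
  rw [mfd_eq h]
  exact ⟨fun k => k _ _ (at_chart _) (at_chart _), .of_chart h (at_chart _) (at_chart _)⟩

theorem ind_iff {α : Type} [Finite α] {h : α → X → ℂ} (hh : ∀ a, Hol n (h a) x) :
    Ind n h x ↔ Surjective fun (ξ : Cm n) a => dif (Cm n) (h a) x ξ := by
  have := Fintype.ofFinite α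
  simp only [fun a => dif_eq (hh a)]
  exact ⟨fun k => (ind_iff_surj _).1 (k.2 _ (at_chart x)),
    fun k => .of_chart hh (at_chart x) ((ind_iff_surj _).2 k)⟩

theorem leq_dif (h : LEq n D x g) (hx : x ∈ D) : dif (Cm n) g x ≠ 0 :=
  dif_eq h.hol ▸ (h.2 _ (at_chart x)).2 (h.mem.2 hx)

theorem isLocalEq_of_leq (h : LEq n D x g) : IsLocalEq (Cm n) D g x :=
  let ⟨V, h1, h2, h3⟩ := eventually_nhds_iff.1 h.near
  ⟨V, h2, h3, fun z hz => hol_iff.1 (h1 z hz).hol, fun z hz => (h1 z hz).mem.symm,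
    fun z hz => subset_closure ⟨hz.1, leq_dif (h1 z hz.2) hz.1⟩⟩

theorem loc_hol (h : IsLocalEq (Cm n) D g x) : Hol n g x :=
  let ⟨_, _, h2, h3, _⟩ := h
  hol_iff.2 (h3 x h2)

theorem loc_ev (h : IsLocalEq (Cm n) D g x) : ∀ᶠ y in 𝓝 x, g y = 0 ↔ y ∈ D :=
  let ⟨_, h1, h2, _, h4, _⟩ := h
  mem_of_superset (h1.mem_nhds h2) fun z hz => (h4 z hz).symm

theorem loc_mem (h : IsLocalEq (Cm n) D g x) : g x = 0 ↔ x ∈ D := (loc_ev h).self_of_nhds

theorem loc_near (h : IsLocalEq (Cm n) D g x) : ∀ᶠ y in 𝓝 x, IsLocalEq (Cm n) D g y :=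
  let ⟨V, h1, h2, h3⟩ := h
  mem_of_superset (h1.mem_nhds h2) fun _ hz => ⟨V, h1, hz, h3⟩

theorem loc_nz (h : IsLocalEq (Cm n) D g x) : Nz g x := fun k => by
  obtain ⟨V, -, h2, -, h4, h5⟩ := h
  obtain ⟨z, h6, -, h7⟩ := mem_closure_iff_nhds.1 (h5 ⟨(h4 x h2).2 k.self_of_nhds, h2⟩) _
    k.eventually_nhds
  exact h7 ((EventuallyEq.mfderiv_eq (f := fun _ => 0) h6).trans mfderiv_const)

theorem leq_of_loc (h : IsLocalEq (Cm n) D g x) (h0 : x ∈ D → dif (Cm n) g x ≠ 0) :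
    LEq n D x g :=
  .of_chart (loc_ev h) (loc_hol h) (at_chart x) fun k =>
    dif_eq (loc_hol h) ▸ h0 ((loc_mem h).1 k)

theorem isPrime_of_hy (h : Hy n D) (hc : IsConnected D) : IsPrime (Cm n) D := by
  refine ⟨P277Z.Slc.isClosed_of_leq h, fun x => (h x).imp fun _ => isLocalEq_of_leq, ?_⟩
  rwa [show {x | x ∈ D ∧ ∃ g, IsLocalEq (Cm n) D g x ∧ dif (Cm n) g x ≠ 0} = D from
    ext fun x => and_iff_left_of_imp fun hx =>
      (h x).imp fun _ k => ⟨isLocalEq_of_leq k, leq_dif k hx⟩]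

theorem prime_an (h : IsPrime (Cm n) D) : An n D := fun x =>
  let ⟨g, hg⟩ := h.2.1 x
  ⟨1, fun _ => g, fun _ => loc_hol hg, (loc_ev hg).mono fun _ k => by simpa using k.symm⟩

theorem prime_thin (h : IsPrime (Cm n) D) : Thin n D :=
  thin_of_nz (prime_an h) fun x =>
    let ⟨g, hg⟩ := h.2.1 x
    ⟨g, loc_hol hg, loc_nz hg, (loc_ev hg).mono fun _ k => k.2⟩

theorem isAnalyticSet_of_an (h : An n D) : H64.Gen.IsAnalyticSet (Cm n) D := fun x =>
  let ⟨k, g, h1, h2⟩ := h x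
  let ⟨V, h3, h4, h5⟩ := eventually_nhds_iff.1 ((eventually_all.2 fun i => (h1 i).near).and h2)
  ⟨V, Fin k, g, h4, h5, fun i z hz => hol_iff.1 ((h3 z hz).1 i), fun z hz => (h3 z hz).2⟩

theorem isModif_of {V V₁ : Mf n} {u : V₁.X → V.X} {B : Set V.X} (h : Modif n u B) :
    IsModif (Cm n) u :=
  ⟨⟨inferInstance, inferInstance, inferInstance, inferInstance⟩, h.hol,
    h.hol.cont.isProperMap, Bᶜ, h.1.closed.isOpen_compl, h.1.2, h.2.dense,
    fun y hy => h.2.one y trivial hy⟩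

variable {Δ : Set X → ℝ}

/-- the local equations of the components of an SNC boundary have independent differentials -/
theorem snc_ind (h : IsSNC (Cm n) Δ) {g : Set X → X → ℂ}
    (hg : ∀ D, Δ D ≠ 0 → x ∈ D → IsLocalEq (Cm n) D (g D) x) :
    Ind n (fun D : {D // Δ D ≠ 0 ∧ x ∈ D} => g D) x :=
  have : Finite {D // Δ D ≠ 0 ∧ x ∈ D} := (h.1.subset fun _ k => k.1).to_subtype
  (ind_iff fun D => loc_hol (hg _ D.2.1 D.2.2)).2 (h.2.2.2 x g hg)

theorem snc_leq (h : IsSNC (Cm n) Δ) (hD : Δ D ≠ 0) (hg : IsLocalEq (Cm n) D g x) :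
    LEq n D x g := by
  classical
  refine leq_of_loc hg fun hx => ?_
  choose! g' hg' using fun D hD => (h.2.1 D hD).2.1 x
  have := ((snc_ind h (g := update g' D g) fun D' h1 _ => by
    by_cases k : D' = D
    · rwa [k, update_self]
    · rw [update_of_ne k]; exact hg' D' h1).2 _ (at_chart x)).ne_zero ⟨D, hD, hx⟩
  rwa [dif_eq (loc_hol hg), ← update_self D g g']

theorem snc_hy (h : IsSNC (Cm n) Δ) (hD : Δ D ≠ 0) : Hy n D := fun x =>
  ((h.2.1 D hD).2.1 x).imp fun _ => snc_leq h hD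

theorem snc_snc (h : IsSNC (Cm n) Δ) : Snc n fun l : {D : Set X | Δ D ≠ 0} => l.1 := fun x => by
  choose! g hg using fun D hD => (h.2.1 D hD).2.1 x
  exact ⟨fun l => g l, fun l => snc_leq h l.2 (hg _ l.2),
    (snc_ind h fun D k _ => hg D k).comp (fun l => ⟨l.1.1, l.1.2, l.2⟩)
      fun _ _ k => Subtype.ext (Subtype.ext (congrArg (fun a => a.1) k))⟩

/-- local equations of a smooth hypersurface are unique up to units -/
theorem leq_unit [T2Space X] [SecondCountableTopology X] {ζ : X → ℂ} (h : LEq n D x ζ)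
    (h' : LEq n D x g) : ∃ u : X → ℂ, Hol n u x ∧ u x ≠ 0 ∧ ∀ᶠ y in 𝓝 x, g y = u y * ζ y :=
  P277Z.Slc.stUnit n X D x ζ g h h'

end Vale.Agent.P281Z.Nt
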