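import Vale.Agent.P281Z.Nt.Hyp
import Vale.Agent.P281Z.Mf.Adj
import Vale.Agent.P281Z.An.Rk
import Vale.Agent.P277Z.Slc.Sard
import Vale.Agent.P277Z.Slc.Unit

/-!
# P281, block NEAT: the rank of `f` on a hypersurface
-/

open scoped Manifold ContDiff Topology
open Set Filter Function MeasureTheory
open Vale.Agent.P272.K
open Vale.Agent.P277Z (Hol at_chart hol_const)
open Vale.Agent.P277Z.Slc (Ind LEq Snc dd ind_iff_surj dd_mul dd_congr)

set_option linter.unusedSectionVars false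

noncomputable section

namespace Vale.Agent.P281Z.Nt

theorem rk_fac {E E' F F' : Type} [AddCommGroup E] [Module ℂ E] [AddCommGroup E'] [Module ℂ E']
    [AddCommGroup F] [Module ℂ F] [AddCommGroup F'] [Module ℂ F'] [FiniteDimensional ℂ F']
    {A : E →ₗ[ℂ] F} {A' : E' →ₗ[ℂ] F'} (T : F' →ₗ[ℂ] F) (h : ∀ v, ∃ w, A v = T (A' w)) :
    Module.finrank ℂ A.range ≤ Module.finrank ℂ A'.range :=
  (Submodule.finrank_mono (t := A'.range.map T) (by
    rintro _ ⟨v, rfl⟩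
    obtain ⟨w, hw⟩ := h v
    exact ⟨_, ⟨w, rfl⟩, hw.symm⟩)).trans (Submodule.finrank_map_le _ _)

theorem exists_fun {n p : ℕ} {a : Cm n →L[ℂ] ℂ} {B : Cm n →L[ℂ] Cm p}
    (h : p ≤ Module.finrank ℂ (LinearMap.range (a.prod B : Cm n →ₗ[ℂ] ℂ × Cm p))) :
    ∃ L : Cm p →L[ℂ] Cm (p - 1), ∀ w, ∃ v, a v = 0 ∧ L (B v) = w := by
  set R := LinearMap.range (a.prod B : Cm n →ₗ[ℂ] ℂ × Cm p)
  let π : R →ₗ[ℂ] ℂ := LinearMap.fst ℂ ℂ (Cm p) ∘ₗ R.subtype
  have h1 := π.finrank_range_add_finrank_ker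
  have h2 : Module.finrank ℂ π.range ≤ 1 := (Submodule.finrank_le _).trans (by simp)
  have h3 := Submodule.finrank_map_subtype_eq R π.ker
  set K := π.ker.map R.subtype
  have h4 : ∀ z : K, ∃ v, a v = 0 ∧ (0, B v) = z.1 := fun z => by
    obtain ⟨_, ⟨_, v, rfl⟩, k, rfl⟩ := z
    exact ⟨v, k, Prod.ext k.symm rfl⟩
  obtain ⟨j, hj⟩ := (finrank_le_iff_exists_linearMap (R := ℂ) (M := Cm (p - 1)) (M' := K)).1
    (by simp only [Module.finrank_fin_fun]; omega)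
  let j' : Cm (p - 1) →ₗ[ℂ] Cm p := LinearMap.snd ℂ ℂ (Cm p) ∘ₗ K.subtype ∘ₗ j
  obtain ⟨L, hL⟩ := j'.exists_leftInverse_of_injective (LinearMap.ker_eq_bot'.2 fun w hw =>
    (injective_iff_map_eq_zero j).1 hj w (Subtype.ext (Prod.ext
      ((h4 (j w)).elim fun _ k => (congrArg Prod.fst k.2).symm) hw)))
  refine ⟨LinearMap.toContinuousLinearMap L, fun w => ?_⟩
  obtain ⟨v, h5, hv⟩ := h4 (j w)
  exact ⟨v, h5, (congrArg L (congrArg Prod.snd hv)).trans (LinearMap.congr_fun hL w)⟩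

variable {n n₁ p : ℕ} {X Y X₁ Y₁ : Type} [TopologicalSpace X] [ChartedSpace (Cm n) X]
  [TopologicalSpace Y] [ChartedSpace (Cm p) Y] [TopologicalSpace X₁] [ChartedSpace (Cm n₁) X₁]
  [TopologicalSpace Y₁] [ChartedSpace (Cm p) Y₁] [IsManifold 𝓘(ℂ, Cm n) ω X]
  [IsManifold 𝓘(ℂ, Cm p) ω Y] [IsManifold 𝓘(ℂ, Cm n₁) ω X₁] [IsManifold 𝓘(ℂ, Cm p) ω Y₁]
  {f : X → Y} {D : Set X} {x : X} {ζ : X → ℂ} {e : Chart n X} {e' : Chart p Y}

/-- the rank of `(d ζ, d f)` -/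
def rkN (f : X → Y) (ζ : X → ℂ) (e : Chart n X) (e' : Chart p Y) (x : X) : ℕ :=
  Module.finrank ℂ (LinearMap.range ((dd ζ e x).prod (df f e e' x) : Cm n →ₗ[ℂ] ℂ × Cm p))

theorem NE.rk_comp {f₁ : X₁ → Y₁} {w : X₁ → X} {v : Y₁ → Y} {D₁ : Set X₁} {x : X₁}
    (h : NE n p f D (w x)) (hf : HolA n p f (w x)) (hf₁ : HolA n₁ p f₁ x) (hw : HolA n₁ n w x)
    (hv : HolA p p v (f₁ x)) (hc : ∀ᶠ z in 𝓝 x, f (w z) = v (f₁ z)) (hs : Sbm n₁ n w x)
    (hD : ∀ᶠ z in 𝓝 x, z ∈ D₁ ↔ w z ∈ D) (hx : x ∈ D₁) {ζ₁ : X₁ → ℂ} (hζ : LEq n₁ D₁ x ζ₁)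
    {e₁ : Chart n₁ X₁} {e₁' : Chart p Y₁} (he : At e₁ x) (he' : At e₁' (f₁ x)) :
    p ≤ rkN f₁ ζ₁ e₁ e₁' x := by
  obtain ⟨ζ, e, e', h1, h2, h3, h4⟩ := h
  obtain ⟨u, u1, -, u3⟩ := leq_unit hζ (leq_congr (hs.leq hw h1) (.of_forall fun _ => rfl)
    (hD.mono fun _ k => k.symm))
  refine h4.trans (rk_fac ((u x • LinearMap.id).prodMap (df v e₁' e' (f₁ x)).toLinearMap) fun t => ?_)
  obtain ⟨s, rfl⟩ := hs e₁ e he h2 t
  refine ⟨s, Prod.ext ?_ ?_⟩
  · exact DFunLike.congr_fun (((dd_comp h1.hol hw he h2).symm.trans (dd_congr u3 he)).trans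
      (dd_mul u1 hζ.hol (hζ.mem.2 hx) he)) s
  · exact DFunLike.congr_fun (((df_comp hf hw he h2 h3).symm.trans (df_congr hc he)).trans
      (df_comp hv hf₁ he he' (hc.self_of_nhds ▸ h3))) s

theorem NE.of_comp {f₁ : X₁ → Y₁} {w : X₁ → X} {v : Y₁ → Y} {D₁ : Set X₁} {x : X₁}
    (h : NE n p f D (w x)) (hf : HolA n p f (w x)) (hf₁ : HolA n₁ p f₁ x) (hw : HolA n₁ n w x)
    (hv : HolA p p v (f₁ x)) (hc : ∀ᶠ z in 𝓝 x, f (w z) = v (f₁ z)) (hs : Sbm n₁ n w x)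
    (hD : ∀ᶠ z in 𝓝 x, z ∈ D₁ ↔ w z ∈ D) (hx : x ∈ D₁) : NE n₁ p f₁ D₁ x :=
  let ⟨_, _, _, h1, _⟩ := h
  have k := leq_congr (hs.leq hw h1) (.of_forall fun _ => rfl) (hD.mono fun _ k => k.symm)
  ⟨_, _, _, k, at_chart x, at_chart _,
    h.rk_comp hf hf₁ hw hv hc hs hD hx k (at_chart x) (at_chart _)⟩

theorem NE.indep (hf : HolA n p f x) (hx : x ∈ D) (hζ : LEq n D x ζ) (he : At e x)
    (he' : At e' (f x)) : NE n p f D x ↔ p ≤ rkN f ζ e e' x :=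
  ⟨fun h => NE.rk_comp (w := fun x => x) (v := fun y => y) h hf hf (holM_id.at x) (holM_id.at _)
    (.of_forall fun _ => rfl) (sbm_id x) (.of_forall fun _ => Iff.rfl) hx hζ he he',
    fun h => ⟨ζ, e, e', hζ, he, he', h⟩⟩

theorem _root_.Vale.Agent.P281Z.Sbm.ne (h : Sbm n p f x) (hζ : LEq n D x ζ) : NE n p f D x := by
  refine ⟨ζ, _, _, hζ, at_chart x, at_chart _, le_trans ?_ (rk_fac
    (A := (df f (chartAt (Cm n) x) (chartAt (Cm p) (f x)) x).toLinearMap)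
    (LinearMap.snd ℂ ℂ (Cm p)) fun v => ⟨v, rfl⟩)⟩
  rw [LinearMap.range_eq_top.2 (h _ _ (at_chart x) (at_chart _))]
  simp

theorem ne_of_ind {α β : Type} [Fintype α] [Fintype β] (hf : HolA n p f x) (hζ : LEq n D x ζ)
    {φ : β → Y → ℂ} (hφ : ∀ i, Hol p (φ i) (f x)) (hc : p ≤ Fintype.card α + Fintype.card β)
    (h : Ind n (Sum.elim (fun _ : α => ζ) fun i z => φ i (f z)) x) : NE n p f D x := by
  have he := at_chart (n := n) x
  have he' := at_chart (n := p) (f x)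
  refine ⟨ζ, _, _, hζ, he, he', le_trans ?_ (rk_fac (A := (ContinuousLinearMap.pi fun a =>
    dd (Sum.elim (fun _ : α => ζ) (fun i z => φ i (f z)) a) (chartAt (Cm n) x) x).toLinearMap)
    (LinearMap.pi (Sum.elim (fun _ => LinearMap.fst ℂ ℂ (Cm p)) fun i =>
      (dd (φ i) (chartAt (Cm p) (f x)) (f x)).toLinearMap ∘ₗ LinearMap.snd ℂ ℂ (Cm p)))
    fun v => ⟨v, funext ?_⟩)⟩
  · rw [LinearMap.range_eq_top.2 ((ind_iff_surj _).1 (h.2 _ he))]
    simpa using hc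
  · rintro (a | i)
    · rfl
    · exact DFunLike.congr_fun (dd_comp (hφ i) hf he he') v

theorem NE.ind (h : NE n p f D x) (hf : HolA n p f x) (hx : x ∈ D) :
    ∃ (ζ : X → ℂ) (φ : Fin (p - 1) → Y → ℂ), LEq n D x ζ ∧ (∀ i, Hol p (φ i) (f x)) ∧
      Ind n (Sum.elim (fun _ : Unit => ζ) fun i z => φ i (f z)) x := by
  obtain ⟨ζ, e, e', h1, h2, h3, h4⟩ := h
  obtain ⟨L, hL⟩ := exists_fun h4
  have h5 : AnV p (fun y => L (e' y)) (f x) := (anV_chart h3).cmp (L.analyticAt _)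
  have h6 : ∀ v i, dd (fun z => L (e' (f z)) i) e x v = L (df f e e' x v) i := fun v i => by
    have k := (L.hasFDerivAt.comp _ (hf.an h2 h3).differentiableAt.hasFDerivAt).fderiv
    have k' := fderiv_pi fun a => (hf.hol (h5.hol a) _ h2).differentiableAt
    exact congrFun (DFunLike.congr_fun (k'.symm.trans k) v) i
  refine ⟨ζ, fun i y => L (e' y) i, h1, h5.hol, .of_chart
    (Sum.rec (fun _ => h1.hol) fun i => hf.hol (h5.hol i)) h2 ((ind_iff_surj _).2 fun w => ?_)⟩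
  obtain ⟨v₀, h0⟩ := (ind_iff_surj _).1 ((Hp.ind_one h1 hx).2 e h2) fun _ => w (.inl ())
  obtain ⟨v, a, b⟩ := hL ((fun i => w (.inr i)) - L (df f e e' x v₀))
  refine ⟨v₀ + v, funext ?_⟩
  rintro (_ | i)
  · change dd ζ e x _ = _
    rw [map_add, a, add_zero]
    exact congrFun h0 ()
  · refine (h6 _ i).trans ?_
    rw [map_add, map_add, b, add_sub_cancel]

theorem nei : NEI := fun _ _ _ _ _ _ hf x hx h => h.ind (hf.at x) hx

theorem hol_dd {a : X → ℂ} (ha : Hol n a x) (he : At e x) (v : Cm n) :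
    Hol n (fun y => dd a e y v) x := by
  refine Hol.of_chart he (AnalyticAt.congr
    (((ContinuousLinearMap.apply ℂ ℂ v).analyticAt _).fun_comp (ha e he).fderiv) ?_)
  filter_upwards [he.nhds_target] with z hz
  rw [dd, e.right_inv hz]
  rfl

theorem an_ne (hf : HolM n p f) (hD : Hy n D) : An n {x | x ∈ D ∧ ¬ NE n p f D x} := by
  refine .of_fin fun x => ?_
  obtain ⟨ζ, hζ⟩ := hD x
  have he := at_chart (n := n) x
  have he' := at_chart (n := p) (f x)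
  set e := chartAt (Cm n) x
  set e' := chartAt (Cm p) (f x)
  let ε := Fin.consLinearEquiv ℂ fun _ : Fin (p + 1) => ℂ
  let L : X → Cm n →L[ℂ] Cm (p + 1) := fun y =>
    ε.toContinuousLinearEquiv.toContinuousLinearMap.comp ((dd ζ e y).prod (df f e e' y))
  have h1 : ∀ y, Ana.rk (L y) = rkN f ζ e e' y := fun y =>
    le_antisymm (rk_fac ε.toLinearMap fun v => ⟨v, rfl⟩)
      (rk_fac ε.symm.toLinearMap fun v => ⟨v, (ε.symm_apply_apply _).symm⟩)
  refine ⟨Option ((Fin p → Fin (p + 1)) × (Fin p → Fin n)), inferInstance, fun q y => q.elim (ζ y)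
    fun q => (Matrix.of fun a b => L y (Pi.single (q.2 b) 1) (q.1 a)).det, ?_, ?_⟩
  · rintro (_ | q)
    · exact hζ.hol
    refine hol_det fun a b => ?_
    simp only [Matrix.of_apply]
    refine Fin.cases (motive := fun i => Hol n (fun y => L y (Pi.single (q.2 b) 1) i) x)
      (hol_dd hζ.hol he _) (fun i => ?_) (q.1 a)
    exact (hol_dfM (hf.at x) he he' i (q.2 b)).congr (.of_forall fun y => dfM_apply i (q.2 b))
  · filter_upwards [hζ.near, at_near he, hf.cont.continuousAt.eventually (at_near he')]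
      with y k1 k2 k3
    rw [Option.forall, ← k1.mem]
    refine and_congr_right fun k => ?_
    rw [NE.indep (hf.at y) (k1.mem.1 k) k1 k2 k3, ← h1, Ana.minor]
    simp

theorem nean : NEAN := fun _ _ _ _ _ _ => an_ne

theorem Small.interior {q : ℕ} {Y : Type} [TopologicalSpace Y] [ChartedSpace (Cm (q + 1)) Y]
    [IsManifold 𝓘(ℂ, Cm (q + 1)) ω Y] {Z : Set Y} (h : Small (q + 1) Z) : interior Z = ∅ :=
  eq_empty_of_forall_notMem fun y hy => by
    have k := fib_ind (f := fun y => y) (holM_id.at y) (sbm_id y) (at_chart (n := q + 1) y)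
    refine h {z | chartAt (Cm (q + 1)) y z 0 - chartAt (Cm (q + 1)) y y 0 = 0} y _
      ⟨.of_forall fun _ => Iff.rfl, fun e he => ⟨k.1 0 e he, fun _ => (k.2 e he).ne_zero 0⟩⟩
      (sub_self _) ?_
    filter_upwards [mem_interior_iff_mem_nhds.1 hy] with z hz _ using hz

theorem hy_snc (hD : Hy n D) : Snc n fun _ : Unit => D := fun x =>
  let ⟨ζ, h⟩ := hD x
  ⟨fun _ => ζ, fun _ => h, fun _ => h.hol, fun e he => linearIndependent_subsingleton_index_iff _ |>.2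
    fun l => (h.2 e he).2 (h.mem.2 l.2)⟩

theorem sml : SML := by
  intro n p X Y f D hf hD h
  rcases p with _ | q
  · obtain rfl : D = ∅ := eq_empty_of_forall_notMem fun x hx =>
      (hD x).elim fun ζ k => h x hx ⟨ζ, _, _, k, at_chart x, at_chart _, Nat.zero_le _⟩
    rw [image_empty]
    exact ⟨fun H x ζ _ hx k => k.self_of_nhds hx, interior_empty⟩
  suffices k : Small (q + 1) (f '' D) from ⟨k, k.interior⟩
  intro H y ζ' h1 h2 h3
  obtain ⟨Θ, t1, t2, t3, t4⟩ := exists_co (Hp.ind_one h1 h2) (d := q) (by simp [add_comm])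
    (h3.and h1.1)
  have t5 : ∀ z ∈ Θ.source, ∀ i, Hol (q + 1) (fun z => (Θ z).2 i) z := fun z hz =>
    ((t1.an z hz).cmp analyticAt_snd).hol
  have h4 := P277Z.Slc.stSard_of P277Z.Slc.stUnit n X.X Unit (fun _ => D) (f ⁻¹' Θ.source) q
    (fun x => (Θ (f x)).2) (hy_snc hD) (Θ.open_source.preimage hf.cont)
    fun x hx i => hf.hol (t5 _ hx i)
  have h5 : (0, (Θ y).2) = Θ y := Prod.ext ((t4 y t2).trans (funext fun _ => h1.mem.2 h2)).symm rfl
  have h6 : IsOpen {s | ((0 : Unit → ℂ), s) ∈ Θ.target} :=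
    Θ.open_target.preimage (Continuous.prodMk_right 0)
  obtain ⟨s, s1, s2⟩ := Measure.exists_mem_of_measure_ne_zero_of_ae
    (h6.measure_pos volume ⟨_, show _ ∈ Θ.target from h5 ▸ Θ.map_source t2⟩).ne'
    (ae_restrict_of_ae h4)
  have s3 := Θ.map_target s1
  obtain ⟨x, x1, x2⟩ := (t3 s3).1 ((t3 s3).2.1
    (congrFun ((t4 _ s3).symm.trans (congrArg Prod.fst (Θ.right_inv s1))) ()))
  obtain ⟨ζ, hζ⟩ := hD x
  have x3 : f x ∈ Θ.source := x2 ▸ s3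
  have := Fintype.ofFinite {_l : Unit // x ∈ D}
  refine h x x1 (ne_of_ind (φ := fun i z => (Θ z).2 i - s i) (hf.at x) hζ
    (fun i => (t5 _ x3 i).sub (hol_const _ _)) ?_ (s2 x x3
      ((congrArg (fun z => (Θ z).2) x2).trans (congrArg Prod.snd (Θ.right_inv s1))) (fun _ => ζ) fun _ => hζ))
  have : Nonempty {_l : Unit // x ∈ D} := ⟨⟨(), x1⟩⟩
  have := Fintype.card_pos (α := {_l : Unit // x ∈ D})
  simp only [Fintype.card_fin]
  omega

theorem nimm : NIMM := by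
  intro p Y Y₁ v Z H hv hZ hH h y hy hi
  obtain ⟨g, g1, g2, g3, -, g5⟩ := hi.inv (hv.at y)
  obtain ⟨ζ, hζ⟩ := hH y
  refine hZ (g ⁻¹' H) (v y) _ ((imm_iff_sbm.1 g3).leq g2 (g1.symm ▸ hζ))
    (show g (v y) ∈ H from g1.symm ▸ hy) (g5.mono fun z a b => a ▸ h _ b)

theorem smu : SMU := by
  intro p Y κ _ Z h1 h2 H x ζ k1 k2 k3
  have := Fintype.ofFinite κ
  obtain ⟨y, ⟨a, l, b⟩, c⟩ := ((Hp.cov h1 k2 (k3.mono fun y a b => mem_iUnion.1 (a b))).and_eventually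
    k1.near).exists
  exact h2 l H y ζ c a b

theorem smu_of (_ : COV) : SMU := smu

end Vale.Agent.P281Z.Nt
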