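import Vale.Agent.P281Z.Nt.Ne

/-!
# P281, block NEAT: log smoothness, bad components
-/

open scoped Manifold ContDiff Topology
open Set Filter Function
open Vale.Agent.P272.K
open Vale.Agent.P277Z (Hol at_chart hol_const)
open Vale.Agent.P277Z.Slc (Ind LEq Snc dd ind_iff_surj dd_mul dd_congr)

set_option linter.unusedSectionVars false

noncomputable section

namespace Vale.Agent.P281Z.Nt

variable {n p : ℕ} {X Y X₁ Y₁ : Type} [TopologicalSpace X] [ChartedSpace (Cm n) X]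
  [TopologicalSpace Y] [ChartedSpace (Cm p) Y] [TopologicalSpace X₁] [ChartedSpace (Cm n) X₁]
  [TopologicalSpace Y₁] [ChartedSpace (Cm p) Y₁] [IsManifold 𝓘(ℂ, Cm n) ω X]
  [IsManifold 𝓘(ℂ, Cm p) ω Y] [IsManifold 𝓘(ℂ, Cm n) ω X₁] [IsManifold 𝓘(ℂ, Cm p) ω Y₁]

theorem an_nimm {u : X₁ → X} (hu : HolM n n u) : An n {x | ¬ Imm n n u x} := fun x => by
  have he := at_chart (n := n) x
  have he' := at_chart (n := n) (u x)
  refine ⟨1, fun _ y => (dfM u (chartAt (Cm n) x) (chartAt (Cm n) (u x)) y).det,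
    fun _ => hol_det (hol_dfM (hu.at x) he he'), ?_⟩
  filter_upwards [at_near he, hu.cont.continuousAt.eventually (at_near he')] with y k1 k2
  rw [imm_iff_det (hu.at y) k1 k2]
  simp

/-- the points off an analytic set are dense in a connected hypersurface -/
theorem hy_freq {D T : Set X} (hc : IsPreconnected D) (hD : Hy n D) (hT : An n T)
    (h : ∃ x ∈ D, x ∉ T) {x : X} (hx : x ∈ D) : ∃ᶠ y in 𝓝 x, y ∈ D ∧ y ∉ T := fun c =>
  let ⟨_, a, b⟩ := h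
  b (Hp.idh hc hD hT hx (c.mono fun _ k l => not_not.1 fun m => k ⟨l, m⟩) a)

theorem hy_of_snc {κ : Type} {G : κ → Set X} (h : Snc n G) (l : κ) : Hy n (G l) := fun x =>
  (h x).elim fun ζ k => ⟨ζ l, k.1 l⟩

/-- a hypersurface which is contained in another one -/
theorem leq_sub {D D' : Set X} {x : X} {ζ ζ' : X → ℂ} (h : LEq n D x ζ) (h' : LEq n D' x ζ')
    (hx : x ∈ D) (k : ∀ᶠ y in 𝓝 x, y ∈ D → y ∈ D') : ∀ᶠ y in 𝓝 x, y ∈ D ↔ y ∈ D' := by
  obtain ⟨c, h1, h2⟩ := Hp.div h h'.hol (by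
    filter_upwards [k, h'.1] with y a b c using b.2 (a c))
  have h3 : c x ≠ 0 := fun c0 => (h'.2 _ (at_chart x)).2 (h'.mem.2 (k.self_of_nhds hx)) (by
    refine (dd_congr h2 (at_chart x)).trans ?_
    rw [dd_mul h1 h.hol (h.mem.2 hx) (at_chart x), c0]
    ext v
    simp)
  filter_upwards [h2, h1.ne_near h3, h.1, h'.1] with y a b c d
  rw [← c, ← d, a, mul_eq_zero, or_iff_right b]

theorem reg_freq [T2Space X] [CompactSpace X] [T1Space Y] {f : X → Y} {κ : Type} [Fintype κ]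
    {G : κ → Set X} {x : X} (hf : HolM n p f) (hG : Snc n G) (h : RegAt n p f G (f x)) :
    ∃ᶠ z in 𝓝 x, z ∈ off G ∧ f z = f x := by
  obtain ⟨F, i, hi, hS⟩ := h.fib (d := n - p) (Nat.add_sub_cancel' (h.sbm hf hG rfl).le).symm hf hG
  obtain ⟨x', rfl⟩ := hi.ex (y := x) rfl
  exact hi.hol.cont.continuousAt.tendsto.frequently
    ((mem_closure_iff_frequently.1 (snc_dense_off hS x')).mono fun z hz => ⟨hz, hi.fib z⟩)

theorem rego : REGO := fun _ _ _ _ _ _ _ _ _ hf hG h => ⟨h.sbm hf hG rfl, reg_freq hf hG h⟩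

theorem regp : REGP := by
  intro n p X X₁ Y Y₁ f f₁ w v κ κ₁ _ _ G G₁ y hf hf₁ hw hv hc hG hG₁ h1 h2 h3 x hx e₁' he₁' ζ₁ hζ₁
  subst hx
  obtain ⟨h4, h5⟩ := h2 x rfl
  have hs := imm_iff_sbm.1 h4
  choose L hL using fun k : {k // x ∈ G₁ k} => h5 k k.2
  have hL1 : ∀ k, w x ∈ G (L k) := fun k => (hL k).self_of_nhds.1 k.2
  have hL2 : Injective L := fun k k' a => by
    by_contra c
    obtain ⟨z, ⟨z1, z2⟩, z3, z4⟩ := ((Hp.genp hG₁ k.2).and_eventually ((hL k).and (hL k'))).exists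
    exact z2 k' (fun b => c (Subtype.ext b.symm)) (z4.2 (a ▸ z3.1 z1))
  obtain ⟨ζ, h6, -⟩ := hG (w x)
  obtain ⟨e', he'⟩ : ∃ e' : Chart p Y.X, At e' (f (w x)) := ⟨_, at_chart _⟩
  have h7 := (hs.ind (hw.at x) (h3 (w x) (hc x) e' (hc x ▸ he') ζ h6)).comp
    (Sum.map (fun k => ⟨L k, hL1 k⟩) id)
    (Injective.sumMap (fun k k' a => hL2 (congrArg Subtype.val a)) injective_id)
  choose u u1 u2 u3 using fun k : {k // x ∈ G₁ k} => leq_unit (hζ₁ k)
    (leq_congr (hs.leq (hw.at x) (h6 (L k))) (.of_forall fun _ => rfl)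
      ((hL k).mono fun _ a => a.symm))
  have := Fintype.ofFinite {k // x ∈ G₁ k}
  refine ⟨Sum.rec (fun k => (hζ₁ k).hol) fun a => hf₁.hol (hol_chart he₁' a), fun e he =>
    (ind_iff_surj _).2 fun t => ?_⟩
  obtain ⟨s, hs⟩ := (ind_iff_surj _).1 (h7.2 e he) (Sum.elim (fun k => u k x * t (.inl k))
    (df v e₁' e' (f₁ x) fun a => t (.inr a)))
  have k1 : df f₁ e e₁' x s = fun a => t (.inr a) := h1 e₁' e' he₁' (hc x ▸ he') (funext fun a => by
    refine Eq.trans ?_ (congrFun hs (.inr a))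
    rw [← ContinuousLinearMap.comp_apply, ← df_comp (hv.at _) (hf₁.at x) he he₁' (hc x ▸ he'),
      ← df_congr (.of_forall hc) he]
    exact df_apply ((hf.comp hw).at x) he he' s a)
  refine ⟨s, funext ?_⟩
  rintro (k | a)
  · refine mul_left_cancel₀ (u2 k) (Eq.trans ?_ (congrFun hs (.inl k)))
    exact (DFunLike.congr_fun ((dd_congr (u3 k) he).trans
      (dd_mul (u1 k) (hζ₁ k).hol ((hζ₁ k).mem.2 k.2) he)) s).symm
  · exact (df_apply (hf₁.at x) he he₁' s a).symm.trans (congrFun k1 a)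

theorem down : DOWN := by
  intro n p M₀ N₁ N Z w v hN hN₁ hU l₁ hB x hx
  have hw := hU.mw.hol
  have hv := hU.mv.hol
  obtain ⟨_, hu⟩ := N.sq.mu
  obtain ⟨_, hu₁⟩ := N₁.sq.mu
  have hf := N.ok.fibn.hol
  have hf₁ := N₁.ok.fibn.hol
  have hD := hy_of_snc N₁.ok.snc l₁
  have h1 : ∀ y, Imm n n N₁.u y → Imm n n w y ∧ Imm n n N.u (w y) := fun y k =>
    have k' := k.cng (.of_forall hU.hu)
    ⟨.of_comp (hu.hol.at _) (hw.at y) k', imm_iff_sbm.2
      (.of_comp (hu.hol.at _) (hw.at y) (imm_iff_sbm.1 k'))⟩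
  have h2 : ∀ y ∈ N₁.G l₁, Imm n n w y → ∃ l, y ∈ w ⁻¹' N.G l := fun y hy k => by
    by_contra c
    have c1 : w y ∈ off N.G := fun l a => c ⟨l, a⟩
    have c2 := (hN.reg _ (N.pre _ c1)).1.sbm hf N.ok.snc rfl
    have c3 := (Sbm.comp (hf.at _) (hw.at y) c2 (imm_iff_sbm.1 k)).cng (.of_forall hU.comm)
    have c4 := imm_iff_sbm.2 (Sbm.of_comp (hv.at _) (hf₁.at y) c3)
    obtain ⟨ζ, hζ⟩ := hD y
    refine hB.2 y hy (Sbm.ne (fun e e' he he' t => ?_) hζ)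
    have c5 := c3 e _ he (at_chart _)
    rw [df_comp (hv.at _) (hf₁.at y) he he' (at_chart _)] at c5
    obtain ⟨s, hs⟩ := c5 (df v e' _ (N₁.f y) t)
    exact ⟨s, c4 _ _ he' (at_chart _) hs⟩
  refine frequently_frequently_nhds.1 ((hy_freq (hN₁.connG l₁).2 hD (an_nimm hu₁.hol)
    (hB.1.imp fun _ k => ⟨k.1, not_not.2 k.2⟩) hx).mono fun y hy => ?_)
  have h3 := (not_not.1 hy.2).near (hu₁.hol.at y)
  refine ((Hp.cov (fun l => (snc_thin N.ok.snc l).closed.preimage hw.cont) hy.1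
    (h3.mono fun z a b => h2 z b (h1 z a).1)).and_eventually h3).mono fun z ⟨⟨a, l, b⟩, c⟩ => ?_
  have hs := imm_iff_sbm.1 (h1 z c).1
  obtain ⟨ζ₁, hζ₁⟩ := hD z
  obtain ⟨ζ, hζ⟩ := hy_of_snc N.ok.snc l (w z)
  have h4 := leq_sub hζ₁ (hs.leq (hw.at z) hζ) a b
  refine ⟨a, (h1 z c).1, l, ⟨⟨w z, b.self_of_nhds a, (h1 z c).2⟩, fun t ht k => ?_⟩, h4⟩
  obtain ⟨z', ⟨d1, d2⟩, d3, d4⟩ := ((hs.freq (hw.at z) (hy_freq (hN.connG l).2 (hy_of_snc N.ok.snc l)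
    (an_ne hf (hy_of_snc N.ok.snc l)) ⟨t, ht, fun m => m.2 k⟩ (b.self_of_nhds a))).and_eventually
      (h4.eventually_nhds.and (hs.near (hw.at z)))).exists
  have d5 := d3.self_of_nhds.2 d1
  exact hB.2 z' d5 (NE.of_comp (not_not.1 fun m => d2 ⟨d1, m⟩) (hf.at _) (hf₁.at _) (hw.at _)
    (hv.at _) (.of_forall hU.comm) d4 d3 d5)

end Vale.Agent.P281Z.Nt
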