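import Vale.Agent.P281Z.Spec
import Vale.Agent.P281Z.Rs.Defs
import Vale.Agent.P277.H60.Z.XH

/-!
# P281, blocks LOGM, BC, NEAT: definitions and statements
-/

open scoped Manifold ContDiff Topology
open Set Filter
open Vale.Agent.P272.K (Cm Chart At)
open Vale.Agent.P285.H281.FD (Bd IsLB IsSec)
open Vale.Agent.P277 (RelAmple)
open Vale.Agent.P277.H60.Z (XH)
open Vale.Agent.P277Z (Hol)
open Vale.Agent.P277Z.Slc (LEq Snc Ind dd)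

noncomputable section

namespace Vale.Agent.P281Z.Nt

section defs

variable (n p : ℕ) {X Y : Type} [TopologicalSpace X] [ChartedSpace (Cm n) X] [TopologicalSpace Y]
  [ChartedSpace (Cm p) Y]

/-- `D` is a smooth closed hypersurface -/
def Hy (D : Set X) : Prop := ∀ x, ∃ ζ, LEq n D x ζ

/-- `Z` contains no germ of a smooth hypersurface -/
def Small (Z : Set X) : Prop :=
  ∀ (H : Set X) (x : X) (ζ : X → ℂ), LEq n H x ζ → x ∈ H → ¬ ∀ᶠ y in 𝓝 x, y ∈ H → y ∈ Z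

/-- the restriction of `f` to the hypersurface `D` has rank at least `p - 1` at `x` -/
def NE (f : X → Y) (D : Set X) (x : X) : Prop :=
  ∃ (ζ : X → ℂ) (e : Chart n X) (e' : Chart p Y), LEq n D x ζ ∧ At e x ∧ At e' (f x) ∧
    p ≤ Module.finrank ℂ
      (LinearMap.range ((dd ζ e x).prod (df f e e' x) : Cm n →ₗ[ℂ] ℂ × Cm p))

/-- the minors of order `p` of `df` vanish to the order `k` along `ζ = 0`, near `x` -/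
def DV (f : X → Y) (k : ℕ) (ζ : X → ℂ) (x : X) : Prop :=
  ∃ (e : Chart n X) (e' : Chart p Y) (C : ℝ), At e x ∧ At e' (f x) ∧ ∀ᶠ y in 𝓝 x,
    ∀ ξ : Fin p → Cm n, ‖(Matrix.of fun a b : Fin p => df f e e' y (ξ b) a).det‖ ≤
      C * ‖ζ y‖ ^ k * ∏ b, ‖ξ b‖

end defs

/-- a log model of `M₀`, with a divisor `E` on the base -/
structure Md {n p : ℕ} (M₀ : Fb n p) extends Fb n p where
  u : X.X → M₀.X.X
  v : Y.X → M₀.Y.X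
  r : ℕ
  E : Fin r → Set Y.X
  ok : toFb.Ok
  sq : toFb.Sq M₀ u v
  coef : ∀ l, δ l = 1 ∨ δ l = 0 ∨ ∃ l', δ l = M₀.δ l'
  snc : Snc p E
  pre : ∀ x ∈ off G, f x ∈ off E
  kahX : M₀.X.Kah → X.Kah
  kahY : M₀.Y.Kah → Y.Kah
  prjX : M₀.X.Prj → X.Prj
  prjY : M₀.Y.Prj → Y.Prj

namespace Md

variable {n p : ℕ} {M₀ : Fb n p}

/-- over `y` the model is log smooth and isomorphic to `M₀` -/
def At (N : Md M₀) (y : N.Y.X) : Prop :=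
  RegAt n p N.f N.G y ∧ Imm p p N.v y ∧ ∀ x, N.f x = y → Imm n n N.u x

/-- the divisors are connected, and the model is log smooth off `E` -/
structure Good (N : Md M₀) : Prop where
  connG : ∀ l, IsConnected (N.G l)
  connE : ∀ j, IsConnected (N.E j)
  reg : ∀ y ∈ off N.E, N.At y

/-- `G l` is exceptional for `f`, and not for `u` -/
def Bad (N : Md M₀) (l : N.κ) : Prop :=
  (∃ x ∈ N.G l, Imm n n N.u x) ∧ ∀ x ∈ N.G l, ¬ NE n p N.f (N.G l) x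

/-- `N₁` is obtained from `N` by a modification `v` of the base with the centre `Z` -/
structure Up (N₁ N : Md M₀) (Z : Set N.Y.X) (w : N₁.X.X → N.X.X) (v : N₁.Y.X → N.Y.X) : Prop where
  mw : Modif n w (N.f ⁻¹' Z)
  mv : Modif p v Z
  hu : ∀ x, N₁.u x = N.u (w x)
  hv : ∀ y, N₁.v y = N.v (v y)
  comm : ∀ x, N.f (w x) = v (N₁.f x)
  offG : ∀ x, x ∈ off N₁.G ↔ w x ∈ off N.G ∧ N.f (w x) ∉ Z
  offE : ∀ y, y ∈ off N₁.E ↔ v y ∈ off N.E ∧ v y ∉ Z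
  div : ∀ y, v y ∈ Z → ∃ j, y ∈ N₁.E j ∧ ∀ z ∈ N₁.E j, v z ∈ Z

/-- the orders of the minors along the bad components are less than `k` -/
def Ord (N : Md M₀) (k : ℕ) : Prop :=
  ∀ l, N.Bad l → ∀ x ∈ N.G l, ∀ ζ, LEq n (N.G l) x ζ → ¬ DV n p N.f k ζ x

end Md

/-- Every holomorphic map to `V` under which `I` becomes locally principal lifts to `V₁`. -/
def Lift {n : ℕ} {V V₁ : Mf n} (w : V₁.X → V.X) (I : Idl n V.X) : Prop :=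
  ∀ (m : ℕ) (W : Mf m) (g : W.X → V.X), HolM m n g → Dense (g ⁻¹' I.Z)ᶜ →
    (∀ y γ, g y ∈ I.U γ → ∃ j, ∀ i, ∃ C : ℝ, ∀ᶠ z in 𝓝 y, ‖I.g γ i (g z)‖ ≤ C * ‖I.g γ j (g z)‖) →
    ∃ g' : W.X → V₁.X, HolM m n g' ∧ ∀ y, w (g' y) = g y

/-- A principalization of `I` which is an isomorphism off `Z(I)`, and such that the total transform
of `G` has simple normal crossings. -/
structure Rl {n : ℕ} (V : Mf n) {κ : Type} (G : κ → Set V.X) (I : Idl n V.X) where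
  V₁ : Mf n
  w : V₁.X → V.X
  md : Modif n w I.Z
  r : ℕ
  G₁ : Fin r → Set V₁.X
  snc : Snc n G₁
  conn : ∀ k, IsConnected (G₁ k)
  off : ∀ x, x ∈ off G₁ ↔ w x ∈ off G ∧ w x ∉ I.Z
  old : ∀ x, w x ∉ I.Z → ∀ k, x ∈ G₁ k → ∃ l, ∀ᶠ z in 𝓝 x, z ∈ G₁ k ↔ w z ∈ G l
  e : Fin r → ℕ
  prin : ∀ y γ, w y ∈ I.U γ → ∀ ζ : Fin r → V₁.X → ℂ, (∀ k, LEq n (G₁ k) y (ζ k)) →
    Rs.Mon n (fun i z => I.g γ i (w z)) ζ e y
  kah : V.Kah → V₁.Kah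
  prj : V.Prj → V₁.Prj
  lift : ∃ I' : Idl n V.X, I'.Z = I.Z ∧ Lift w I'

/-- **RESL** -/
def RESL : Prop := ∀ (n : ℕ) (V : Mf n) (κ : Type) [Fintype κ] (G : κ → Set V.X) (I : Idl n V.X),
  Snc n G → Dense I.Zᶜ → Nonempty (Rl V G I)

/-- a projective modification is a blowing up -/
def BLOW : Prop := ∀ (n : ℕ) (V V₁ : Mf n) (w : V₁.X → V.X) (Z : Set V.X) (P : Bd V₁.X)
  (τ : P.ι → V₁.X → ℂ), Modif n w Z → IsLB n P → RelAmple (XH n V₁.X) (XH n V.X) w P →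
  IsSec n (P277.Bd.inv P) τ → (∀ i, ∀ y ∈ P.U i, τ i y = 0 ↔ w y ∈ Z) →
  ∃ I : Idl n V.X, I.Z = Z ∧ Lift w I

/-! ### Hypersurfaces -/

/-- division by a local equation -/
def DIV : Prop := ∀ (n : ℕ) (V : Mf n) (D : Set V.X) (x : V.X) (ζ b : V.X → ℂ), LEq n D x ζ →
  Hol n b x → (∀ᶠ y in 𝓝 x, y ∈ D → b y = 0) →
  ∃ c, Hol n c x ∧ ∀ᶠ y in 𝓝 x, b y = c y * ζ y

/-- the identity theorem on a connected hypersurface -/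
def IDH : Prop := ∀ (n : ℕ) (V : Mf n) (D T : Set V.X), IsPreconnected D → Hy n D → An n T →
  ∀ x ∈ D, (∀ᶠ y in 𝓝 x, y ∈ D → y ∈ T) → D ⊆ T

/-- general points of a component -/
def GENP : Prop := ∀ (n : ℕ) (V : Mf n) (κ : Type) [Fintype κ] (G : κ → Set V.X), Snc n G →
  ∀ l, ∀ x ∈ G l, ∃ᶠ y in 𝓝 x, y ∈ G l ∧ ∀ k, k ≠ l → y ∉ G k

/-- a function without zeros off the divisors is a monomial -/
def MON : Prop := ∀ (n : ℕ) (V : Mf n) (κ : Type) [Fintype κ] (G : κ → Set V.X) (x : V.X)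
  (ζ : κ → V.X → ℂ) (b : V.X → ℂ), Snc n G → (∀ l, LEq n (G l) x (ζ l)) → Hol n b x →
  (∀ᶠ y in 𝓝 x, y ∈ off G → b y ≠ 0) →
  ∃ (a : κ → ℕ) (c : V.X → ℂ), Hol n c x ∧ c x ≠ 0 ∧ ∀ᶠ y in 𝓝 x, b y = c y * ∏ l, ζ l y ^ a l

/-- the order of vanishing is locally bounded -/
def ORD : Prop := ∀ (n : ℕ) (V : Mf n) (D : Set V.X) (x : V.X) (ζ b : V.X → ℂ), LEq n D x ζ →
  Hol n b x → (¬ ∀ᶠ y in 𝓝 x, b y = 0) →
  ∃ j : ℕ, ∀ᶠ y in 𝓝 x, y ∈ D → ¬ ∃ C : ℝ, ∀ᶠ z in 𝓝 y, ‖b z‖ ≤ C * ‖ζ z‖ ^ j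

/-- finite closed covers of a closed set -/
def COV : Prop := ∀ (n : ℕ) (V : Mf n) (κ : Type) [Fintype κ] (D : Set V.X) (T : κ → Set V.X)
  (x : V.X), (∀ l, IsClosed (T l)) → x ∈ D → (∀ᶠ y in 𝓝 x, y ∈ D → ∃ l, y ∈ T l) →
  ∃ᶠ y in 𝓝 x, y ∈ D ∧ ∃ l, ∀ᶠ z in 𝓝 y, z ∈ D → z ∈ T l

/-! ### Models -/

/-- the coefficients of a log model -/
def COEF : Prop :=
  ∀ (n : ℕ) (V V₁ : Mf n) (u : V₁.X → V.X) (κ κ₁ : Type) [Fintype κ] [Fintype κ₁]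
    (G : κ → Set V.X) (δ : κ → ℚ) (G₁ : κ₁ → Set V₁.X), HolM n n u → Snc n G → Snc n G₁ →
    (∀ l, IsConnected (G₁ l)) → (∀ l, 0 ≤ δ l ∧ δ l ≤ 1) →
    (∀ x ∈ off G₁, u x ∈ off G ∧ Imm n n u x) →
    ∃ δ₁ : κ₁ → ℚ, (∀ l, 0 ≤ δ₁ l ∧ δ₁ l ≤ 1) ∧ (∀ l, δ₁ l = 1 ∨ δ₁ l = 0 ∨ ∃ l', δ₁ l = δ l') ∧
      LogM n u G δ G₁ δ₁

/-- the coefficient of a component which is not exceptional -/
def GENC : Prop :=
  ∀ (n : ℕ) (V V₁ : Mf n) (u : V₁.X → V.X) (κ κ₁ : Type) [Fintype κ] [Fintype κ₁]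
    (G : κ → Set V.X) (δ : κ → ℚ) (G₁ : κ₁ → Set V₁.X) (δ₁ : κ₁ → ℚ), HolM n n u → Snc n G →
    Snc n G₁ → (∀ l, IsConnected (G₁ l)) → LogM n u G δ G₁ δ₁ → ∀ k,
    ((∀ x ∈ G₁ k, ¬ Imm n n u x) ∧ δ₁ k = 1) ∨ ((∃ x ∈ G₁ k, Imm n n u x) ∧
      (((∃ x ∈ G₁ k, u x ∈ off G) ∧ δ₁ k = 0) ∨ ∃ l, (∀ x ∈ G₁ k, u x ∈ G l) ∧ δ₁ k = δ l))

/-- the identity is a log model -/
def LREFL : Prop := ∀ (n : ℕ) (V : Mf n) (κ : Type) [Fintype κ] (G : κ → Set V.X) (δ : κ → ℚ),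
  Snc n G → Modif n (id : V.X → V.X) ∅ ∧ LogM n id G δ G δ

/-- log models, with the exact support of the divisors -/
def LOGS : Prop :=
  ∀ (n : ℕ) (V V' : Mf n) (u : V'.X → V.X) (B : Set V.X) (κ : Type) [Fintype κ] (G : κ → Set V.X)
    (δ : κ → ℚ) (B' : Set V'.X), Modif n u B → Snc n G → (∀ l, 0 ≤ δ l ∧ δ l ≤ 1) → Thin n B' →
    ∃ (V₁ : Mf n) (u' : V₁.X → V'.X) (κ₁ : Type) (_ : Fintype κ₁) (G₁ : κ₁ → Set V₁.X)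
      (δ₁ : κ₁ → ℚ), (∃ B₁, Modif n u' B₁) ∧ (∃ B₁, Modif n (fun x => u (u' x)) B₁) ∧ Snc n G₁ ∧
      (∀ l, IsConnected (G₁ l)) ∧ (∀ l, 0 ≤ δ₁ l ∧ δ₁ l ≤ 1) ∧ (∀ l, δ₁ l = 1 ∨ δ₁ l = 0 ∨
        ∃ l', δ₁ l = δ l') ∧ LogM n (fun x => u (u' x)) G δ G₁ δ₁ ∧
      (∀ x, x ∈ off G₁ ↔ u (u' x) ∈ off G ∧ Imm n n u (u' x) ∧ u' x ∉ B') ∧
      (V'.Kah → V₁.Kah) ∧ (V'.Prj → V₁.Prj)

/-- the main component of the fibre product -/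
def GRAPH : Prop :=
  ∀ (n p : ℕ) (X : Mf n) (Y Y₁ : Mf p) (f : X.X → Y.X) (v : Y₁.X → Y.X) (B : Set Y.X),
    HolM n p f → Dense (f ⁻¹' B)ᶜ → Modif p v B →
    ∃ (X' : Mf n) (w : X'.X → X.X) (f' : X'.X → Y₁.X), Modif n w (f ⁻¹' B) ∧ HolM n p f' ∧
      (∀ x, f (w x) = v (f' x)) ∧ (X.Kah → Y₁.Kah → X'.Kah)

/-- the preimage of a thin set -/
def PRE : Prop := ∀ (n p : ℕ) (X : Mf n) (Y : Mf p) (f : X.X → Y.X) (B : Set Y.X),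
  ConnectedSpace X.X → HolM n p f → Function.Surjective f → Thin p B → Thin n (f ⁻¹' B)

/-- all fibres of a fibration are connected -/
def ALLC : Prop := ∀ (n p : ℕ) (X : Mf n) (Y : Mf p) (f : X.X → Y.X), ConnectedSpace X.X →
  Fibn n p f → ∀ y, IsConnected (f ⁻¹' {y})

/-- a modification of a fibration is a fibration -/
def FIBN : Prop :=
  ∀ (n p : ℕ) (X X₁ : Mf n) (Y Y₁ : Mf p) (f : X.X → Y.X) (f₁ : X₁.X → Y₁.X) (w : X₁.X → X.X)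
    (v : Y₁.X → Y.X) (B : Set X.X) (B' : Set Y.X), ConnectedSpace X.X → Fibn n p f →
    Modif n w B → Modif p v B' → HolM n p f₁ → (∀ x, f (w x) = v (f₁ x)) →
    ConnectedSpace X₁.X ∧ Fibn n p f₁

/-- composition of modifications -/
def MCOMP : Prop := ∀ (n : ℕ) (V V' V₁ : Mf n) (u : V'.X → V.X) (u' : V₁.X → V'.X) (B : Set V.X)
  (B' : Set V'.X), Modif n u B → Modif n u' B' → ∃ B₁, Modif n (fun x => u (u' x)) B₁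

/-! ### Neat models -/

/-- principalization of a thin subset of the base -/
def UP : Prop := ∀ (n p : ℕ) (M₀ : Fb n p) (N : Md M₀) (Z : Set N.Y.X), M₀.Ok → Thin p Z →
  (∀ y ∈ off N.E, y ∉ Z → N.At y) → ∃ (N₁ : Md M₀) (w : N₁.X.X → N.X.X) (v : N₁.Y.X → N.Y.X),
    N₁.Good ∧ N₁.Up N Z w v

/-- log smoothness is local on the base -/
def REGP : Prop :=
  ∀ (n p : ℕ) (X X₁ : Mf n) (Y Y₁ : Mf p) (f : X.X → Y.X) (f₁ : X₁.X → Y₁.X) (w : X₁.X → X.X)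
    (v : Y₁.X → Y.X) (κ κ₁ : Type) [Fintype κ] [Fintype κ₁] (G : κ → Set X.X) (G₁ : κ₁ → Set X₁.X)
    (y : Y₁.X), HolM n p f → HolM n p f₁ → HolM n n w → HolM p p v → (∀ x, f (w x) = v (f₁ x)) →
    Snc n G → Snc n G₁ → Imm p p v y → (∀ x, f₁ x = y → Imm n n w x ∧
      ∀ k, x ∈ G₁ k → ∃ l, ∀ᶠ z in 𝓝 x, z ∈ G₁ k ↔ w z ∈ G l) →
    RegAt n p f G (v y) → RegAt n p f₁ G₁ y

/-- consequences of log smoothness -/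
def REGO : Prop := ∀ (n p : ℕ) (X : Mf n) (Y : Mf p) (f : X.X → Y.X) (κ : Type) [Fintype κ]
  (G : κ → Set X.X) (x : X.X), HolM n p f → Snc n G → RegAt n p f G (f x) →
  Sbm n p f x ∧ ∃ᶠ z in 𝓝 x, z ∈ off G ∧ f z = f x

/-- the rank condition, with functions -/
def NEI : Prop := ∀ (n p : ℕ) (X : Mf n) (Y : Mf p) (f : X.X → Y.X) (D : Set X.X), HolM n p f →
  ∀ x ∈ D, NE n p f D x → ∃ (ζ : X.X → ℂ) (φ : Fin (p - 1) → Y.X → ℂ), LEq n D x ζ ∧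
    (∀ i, Hol p (φ i) (f x)) ∧ Ind n (Sum.elim (fun _ : Unit => ζ) fun i z => φ i (f z)) x

/-- a hypersurface is not mapped into a small set by a local isomorphism -/
def NIMM : Prop := ∀ (p : ℕ) (Y Y₁ : Mf p) (v : Y₁.X → Y.X) (Z : Set Y.X) (H : Set Y₁.X),
  HolM p p v → Small p Z → Hy p H → (∀ z ∈ H, v z ∈ Z) → ∀ y ∈ H, ¬ Imm p p v y

/-- finite unions of small sets -/
def SMU : Prop := ∀ (p : ℕ) (Y : Mf p) (κ : Type) [Finite κ] (Z : κ → Set Y.X),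
  (∀ l, IsClosed (Z l)) → (∀ l, Small p (Z l)) → Small p (⋃ l, Z l)

/-- the points where `f` has a small rank on `D` -/
def NEAN : Prop := ∀ (n p : ℕ) (X : Mf n) (Y : Mf p) (f : X.X → Y.X) (D : Set X.X), HolM n p f →
  Hy n D → An n {x | x ∈ D ∧ ¬ NE n p f D x}

/-- Sard -/
def SML : Prop := ∀ (n p : ℕ) (X : Mf n) (Y : Mf p) (f : X.X → Y.X) (D : Set X.X), HolM n p f →
  Hy n D → (∀ x ∈ D, ¬ NE n p f D x) → Small p (f '' D) ∧ interior (f '' D) = ∅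

/-- the orders are bounded -/
def BND : Prop := ∀ (n p : ℕ) (M₀ : Fb n p) (N : Md M₀), N.Good → ∃ k, N.Ord k

/-- the minors are bounded -/
def DV0 : Prop := ∀ (n p : ℕ) (X : Mf n) (Y : Mf p) (f : X.X → Y.X) (ζ : X.X → ℂ) (x : X.X),
  HolM n p f → DV n p f 0 ζ x

/-- a bad component of `N₁` is, at some point near any given point, a bad component of `N` -/
def DOWN : Prop := ∀ (n p : ℕ) (M₀ : Fb n p) (N₁ N : Md M₀) (Z : Set N.Y.X) w v, N.Good →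
  N₁.Good → N₁.Up N Z w v → ∀ l₁, N₁.Bad l₁ → ∀ x ∈ N₁.G l₁, ∃ᶠ y in 𝓝 x, y ∈ N₁.G l₁ ∧ Imm n n w y ∧
    ∃ l, N.Bad l ∧ ∀ᶠ z in 𝓝 y, (z ∈ N₁.G l₁ ↔ w z ∈ N.G l)

/-- the order drops -/
def DROP : Prop :=
  ∀ (n p : ℕ) (X X₁ : Mf n) (Y Y₁ : Mf p) (f : X.X → Y.X) (f₁ : X₁.X → Y₁.X) (w : X₁.X → X.X)
    (v : Y₁.X → Y.X) (D : Set X.X) (D₁ : Set X₁.X) (ζ : X.X → ℂ) (ζ₁ : X₁.X → ℂ) (x : X₁.X)
    (k : ℕ), HolM n p f → HolM n p f₁ → HolM n n w → HolM p p v → (∀ x, f (w x) = v (f₁ x)) →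
    Imm n n w x → x ∈ D₁ → LEq n D₁ x ζ₁ → LEq n D (w x) ζ → (∀ᶠ z in 𝓝 x, z ∈ D₁ ↔ w z ∈ D) →
    (∀ᶠ z in 𝓝 x, z ∈ D₁ → ¬ Imm p p v (f₁ z)) → DV n p f₁ k ζ₁ x → DV n p f (k + 1) ζ (w x)

/-- **neat models** -/
def NEATK : Prop := ∀ (n p : ℕ) (M₀ : Fb n p) (Q : Set M₀.Y.X), M₀.Ok → Thin p Q →
  ∃ N : Md M₀, N.Good ∧ (∀ l, ¬ N.Bad l) ∧ ∀ y ∈ off N.E, N.v y ∉ Q

/-- **neat models**, unbundled -/
def NEATF : Prop := ∀ (n p : ℕ) (M : Fb n p) (Q : Set M.Y.X), M.Ok → Thin p Q →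
  ∃ (M₁ : Fb n p) (u : M₁.X.X → M.X.X) (v : M₁.Y.X → M.Y.X) (r : ℕ) (D : Fin r → Set M₁.Y.X),
    M₁.Ok ∧ M₁.Sq M u v ∧ (M.X.Kah → M₁.X.Kah) ∧ (M.Y.Kah → M₁.Y.Kah) ∧ (M.X.Prj → M₁.X.Prj) ∧
    (M.Y.Prj → M₁.Y.Prj) ∧ (∀ l, IsConnected (M₁.G l)) ∧
    (∀ l, M₁.δ l = 1 ∨ M₁.δ l = 0 ∨ ∃ l', M₁.δ l = M.δ l') ∧ Snc p D ∧ (∀ j, IsConnected (D j)) ∧
    (∀ y ∈ off D, v y ∉ Q ∧ Imm p p v y ∧ RegAt n p M₁.f M₁.G y ∧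
      ∀ x, M₁.f x = y → Imm n n u x) ∧ (∀ x ∈ off M₁.G, M₁.f x ∈ off D) ∧
    (∀ l, ((∀ x ∈ M₁.G l, ¬ Imm n n u x) ∧ M₁.δ l = 1) ∨ ∃ x ∈ M₁.G l,
      ∃ (ζ : M₁.X.X → ℂ) (φ : Fin (p - 1) → M₁.Y.X → ℂ), LEq n (M₁.G l) x ζ ∧
        (∀ i, Hol p (φ i) (M₁.f x)) ∧
        Ind n (Sum.elim (fun _ : Unit => ζ) fun i z => φ i (M₁.f z)) x) ∧
    ((∀ l, M.δ l = 1 → ∃ S, Thin p S ∧ M.f '' M.G l ⊆ S) →
      ∀ l, M₁.δ l = 1 → ∃ S, Thin p S ∧ M₁.f '' M₁.G l ⊆ S)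

end Vale.Agent.P281Z.Nt
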