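import Vale.Agent.P281Z.Nt.Bc
import Vale.Agent.P281Z.Gt.Defs

/-!
# P281, block BC: base change by a blowing up, for block III
-/

open Set

namespace Vale.Agent.P281Z.Nt

open Gt

theorem itg {n p m : ℕ} {M₁ M : Fb n p} (h : Itg M m)
    (k : ∀ l, M₁.δ l = 1 ∨ M₁.δ l = 0 ∨ ∃ l', M₁.δ l = M.δ l') : Itg M₁ m := fun l => by
  rcases k l with a | a | ⟨l', a⟩ <;> rw [a]
  exacts [⟨m, mul_one _⟩, ⟨0, by simp⟩, h l']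

theorem bcv_lift (hL : RESL) {n p m : ℕ} {M : Fb n p} {Y₁ : Mf p} {v : Y₁.X → M.Y.X}
    {I : Idl p M.Y.X} (hM : Std M m) (hv : Modif p v I.Z) (hl : Lift v I) (hY : Y₁.Kah) :
    ∃ (X₁ : Mf n) (f₁ : X₁.X → Y₁.X) (κ₁ : Type) (_ : Fintype κ₁) (G₁ : κ₁ → Set X₁.X)
      (δ₁ : κ₁ → ℚ) (u : X₁.X → M.X.X), Std ⟨X₁, Y₁, f₁, κ₁, G₁, δ₁⟩ m ∧
      Mv ⟨X₁, Y₁, f₁, κ₁, G₁, δ₁⟩ M u v (v ⁻¹' I.Z) ∧ Modif n u (M.f ⁻¹' I.Z) ∧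
      (∀ l, IsConnected (G₁ l)) ∧ ∀ x, x ∈ off G₁ ↔ u x ∈ off M.G ∧ M.f (u x) ∉ I.Z := by
  obtain ⟨X₁, f₁, r, G₁, δ₁, u, a1, a2, a3, a4, a5, a6, -, a8, -⟩ := bcl hL hM.ok hv hl
  have h : ∀ x, v (f₁ x) ∉ I.Z → Imm n n u x := fun x hx =>
    a3.imm fun k => hx (mem_of_eq_of_mem (a2.comm x).symm k)
  exact ⟨X₁, f₁, _, inferInstance, G₁, δ₁, u, ⟨a1, a8 hM.kahX, hY,
    vert a1 hM.ok a2 a4 hv.thin_pre h hM.vert, itg hM.itg a5, hM.two⟩,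
    ⟨a2, hv.thin_pre, fun y hy => ⟨hv.imm hy, fun x hx => h x (hx ▸ hy :)⟩⟩, a3, a4, a6⟩

/-- base change by the principalization of an ideal of the base -/
theorem bcv_idl (hL : RESL) {n p m : ℕ} {M : Fb n p} (hM : Std M m) {κ : Type} [Fintype κ]
    {E : κ → Set M.Y.X} (hE : P277Z.Slc.Snc p E) (J : Idl p M.Y.X) (hJ : Dense J.Zᶜ) :
    ∃ (R : Rl M.Y E J) (X₁ : Mf n) (f₁ : X₁.X → R.V₁.X) (κ₁ : Type) (_ : Fintype κ₁)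
      (G₁ : κ₁ → Set X₁.X) (δ₁ : κ₁ → ℚ) (u : X₁.X → M.X.X), Std ⟨X₁, R.V₁, f₁, κ₁, G₁, δ₁⟩ m ∧
      Mv ⟨X₁, R.V₁, f₁, κ₁, G₁, δ₁⟩ M u R.w (R.w ⁻¹' J.Z) ∧ Modif n u (M.f ⁻¹' J.Z) ∧
      (∀ l, IsConnected (G₁ l)) ∧ ∀ x, x ∈ off G₁ ↔ u x ∈ off M.G ∧ M.f (u x) ∉ J.Z := by
  obtain ⟨R⟩ := hL p M.Y κ E J hE hJ
  obtain ⟨I, e, hl⟩ := R.lift
  exact ⟨R, e ▸ bcv_lift hL hM (e ▸ R.md) hl (R.kah hM.kahY)⟩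

end Vale.Agent.P281Z.Nt
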