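import Vale.Agent.P281Z.Nt.Sk
import Vale.Agent.P281Z.Mf.Mod

/-!
# P281, block NEAT: modifications of fibrations
-/

open Set Function

namespace Vale.Agent.P281Z.Nt

theorem pre : PRE := fun _ _ _ _ _ _ _ hf hs hB => hB.pre_surj hf hs

theorem allc : ALLC := fun _ _ _ _ _ _ h => h.conn_all

theorem mcomp_of (h : REM) : MCOMP := fun _ _ _ _ _ _ _ _ k k' => ⟨_, k.comp h k'⟩

theorem fibn : FIBN := by
  intro n p X X₁ Y Y₁ f f₁ w v B B' hX hf hw hv hf₁ hc
  have h1 := hf.modif hw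
  have h2 : ∀ y, v y ∉ B' → IsConnected (f₁ ⁻¹' {y}) := fun y hy => by
    have := hw.conn
    have k : f₁ ⁻¹' {y} = (fun x => f (w x)) ⁻¹' {v y} :=
      ext fun x => ⟨fun a => (hc x).trans (congrArg v a), fun a => hv.inj hy ((hc x).symm.trans a)⟩
    exact k ▸ h1.conn_all (v y)
  refine ⟨hw.conn, hf₁, fun y => ?_, _, hv.thin_pre, h2⟩
  exact (isCompact_range hf₁.cont).isClosed.closure_subset
    (closure_mono (fun z hz => (h2 z hz).1) (hv.2.dense y))

end Vale.Agent.P281Z.Nt
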