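import Vale.Agent.P281Z.Rs.Out
import Vale.Agent.P281Z.Nt.Coef
import Vale.Agent.P281Z.Nt.Fibn
import Vale.Agent.P281Z.Nt.Down

/-!
# P281, blocks LOGM, BC: log models and base change
-/

open scoped Manifold ContDiff Topology
open Set Filter
open Vale.Agent.P272.K (Cm Chart At)
open Vale.Agent.P277Z (Hol at_chart)
open Vale.Agent.P277Z.Slc (LEq Snc Ind dd)

noncomputable section

namespace Vale.Agent.P281Z.Nt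

variable {n p : ℕ}

theorem snc_empty (V : Mf n) {κ : Type} [IsEmpty κ] (G : κ → Set V.X) : Snc n G := fun _ =>
  ⟨isEmptyElim, isEmptyElim, fun l => isEmptyElim l.1, fun _ _ => linearIndependent_empty_type⟩

theorem Rl.mem_Z {V : Mf n} {κ : Type} {G : κ → Set V.X} {I : Idl n V.X} (R : Rl V G I)
    {y : R.V₁.X} : R.w y ∈ I.Z ↔ ∃ j, R.e j ≠ 0 ∧ y ∈ R.G₁ j := by
  obtain ⟨γ, hγ⟩ := I.cover (R.w y)
  obtain ⟨ζ, hζ, -⟩ := R.snc y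
  obtain ⟨c, -, ⟨k, c2⟩, c3⟩ := R.prin y γ hγ ζ hζ
  have h : ∏ l, ζ l y ^ R.e l = 0 ↔ ∃ j, R.e j ≠ 0 ∧ y ∈ R.G₁ j := by
    simp only [Finset.prod_eq_zero_iff, Finset.mem_univ, true_and, pow_eq_zero_iff', (hζ _).mem,
      and_comm]
  rw [Idl.mem_Z hγ, ← h]
  exact ⟨fun a => (mul_eq_zero.1 ((c3.self_of_nhds k).symm.trans (a k))).resolve_left c2,
    fun a i => (c3.self_of_nhds i).trans (by rw [a, mul_zero])⟩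

theorem logs_of (hL : RESL) (hI : IDL) (hR : REM) : LOGS := by
  intro n V V' u B κ _ G δ B' hu hG hδ hB
  have hT : Thin n ((u ⁻¹' (off G)ᶜ ∪ {x | ¬ Imm n n u x}) ∪ B') :=
    ((hu.pre_thin (snc_thin_off hG)).union (hu.thin_pre.sub (an_nimm hu.hol)
      fun x hx => by_contra fun k => hx (hu.imm k))).union hB
  obtain ⟨I, e⟩ := hI n V' _ hT.1
  obtain ⟨R⟩ := hL n V' Empty Empty.elim I (snc_empty _ _) (e ▸ hT.2)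
  have h1 : ∀ x, x ∈ off R.G₁ ↔ u (R.w x) ∈ off G ∧ Imm n n u (R.w x) ∧ R.w x ∉ B' := fun x => by
    rw [R.off, e]
    simp [off, and_assoc]
  obtain ⟨δ₁, a1, a2, a3⟩ := coef n V R.V₁ (fun x => u (R.w x)) κ _ G δ R.G₁ (hu.hol.comp R.md.hol)
    hG R.snc R.conn hδ fun x hx => ⟨((h1 x).1 hx).1, .comp (hu.hol.at _) (R.md.hol.at _)
      ((h1 x).1 hx).2.1 (R.md.imm ((R.off x).1 hx).2)⟩
  exact ⟨R.V₁, R.w, _, inferInstance, R.G₁, δ₁, ⟨_, R.md⟩, ⟨_, hu.comp hR R.md⟩, R.snc, R.conn, a1,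
    a2, a3, h1, R.kah, R.prj⟩

theorem logm_of (h : LOGS) : LOGM := fun n V V' u B κ _ G δ B' hu hG hδ hB =>
  let ⟨V₁, u', κ₁, i, G₁, δ₁, a1, a2, a3, a4, a5, a6, a7, a8, a9, _⟩ :=
    h n V V' u B κ G δ B' hu hG hδ hB
  ⟨V₁, u', κ₁, i, G₁, δ₁, a1, a2, a3, a4, a5, a6, a7, fun x hx => ((a8 x).1 hx).2.2, a9⟩

theorem bc_of (hG : GRAPH) (hL : LOGS) : BC := by
  intro n p M Y₁ v B hM hv
  have hc := hM.conn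
  obtain ⟨X', w, f', a1, a2, a3, a4⟩ := hG n p M.X M.Y Y₁ M.f v B hM.fibn.hol
    (hv.thin.pre_surj hM.fibn.hol hM.fibn.surj).2 hv
  obtain ⟨X₁, u, κ₁, _, G₁, δ₁, ⟨B₁, b1⟩, ⟨B₂, b2⟩, b3, b4, b5, b6, b7, -, b9, -⟩ :=
    hL n M.X X' w _ M.κ M.G M.δ ∅ a1 hM.snc hM.bdry thin_empty
  obtain ⟨c1, c2⟩ := fibn n p M.X X₁ M.Y Y₁ M.f (fun x => f' (u x)) _ v _ _ hc hM.fibn b2 hv
    (a2.comp b1.hol) fun x => a3 _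
  exact ⟨X₁, _, κ₁, inferInstance, G₁, δ₁, _, ⟨c1, c2, b3, b5⟩, ⟨⟨_, b2⟩, ⟨_, hv⟩, fun x => a3 _, b7⟩,
    b4, b6, fun a b => b9 (a4 a b)⟩

/-- base change by a blowing up -/
theorem core (hL : RESL) {M : Fb n p} (hM : M.Ok) {Y₁ : Mf p} {v : Y₁.X → M.Y.X} {I : Idl p M.Y.X}
    (hv : Modif p v I.Z) (hl : Lift v I) :
    ∃ (R : Rl M.X M.G (I.pull hM.fibn.hol)) (f₁ : R.V₁.X → Y₁.X),
      (∀ x, M.f (R.w x) = v (f₁ x)) ∧ ConnectedSpace R.V₁.X ∧ Fibn n p f₁ := by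
  have hc := hM.conn
  obtain ⟨R⟩ := hL n M.X M.κ M.G (I.pull hM.fibn.hol) hM.snc
    (hv.thin.pre_surj hM.fibn.hol hM.fibn.surj).2
  obtain ⟨f₁, h1, h2⟩ := hl n R.V₁ (fun x => M.f (R.w x)) (hM.fibn.hol.comp R.md.hol)
    R.md.2.dense fun y γ hy => by
      obtain ⟨ζ, hζ, -⟩ := R.snc y
      obtain ⟨c, c1, ⟨j, c2⟩, c3⟩ := R.prin y γ hy ζ hζ
      refine ⟨j, fun i => ⟨‖c i y / c j y‖ + 1, ?_⟩⟩
      filter_upwards [c3, (c1 j).ne_near c2, ((c1 i).cont.div (c1 j).cont c2).norm.eventually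
        (gt_mem_nhds (lt_add_one _))] with z a b d
      refine le_trans (le_of_eq ?_) (mul_le_mul_of_nonneg_right d.le (norm_nonneg _))
      rw [← norm_mul]
      refine congrArg _ ((a i).trans (Eq.trans ?_ (congrArg _ (a j).symm)))
      rw [Pi.div_apply, ← mul_assoc, div_mul_cancel₀ _ b]
  exact ⟨R, f₁, fun x => (h2 x).symm,
    fibn n p _ _ _ _ M.f f₁ R.w v _ _ hc hM.fibn R.md hv h1 fun x => (h2 x).symm⟩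

/-- base change by a blowing up, with coefficients -/
theorem bcl (hL : RESL) {M : Fb n p} (hM : M.Ok) {Y₁ : Mf p} {v : Y₁.X → M.Y.X} {I : Idl p M.Y.X}
    (hv : Modif p v I.Z) (hl : Lift v I) :
    ∃ (X₁ : Mf n) (f₁ : X₁.X → Y₁.X) (r : ℕ) (G₁ : Fin r → Set X₁.X) (δ₁ : Fin r → ℚ)
      (u : X₁.X → M.X.X), Fb.Ok ⟨X₁, Y₁, f₁, Fin r, G₁, δ₁⟩ ∧
      Fb.Sq ⟨X₁, Y₁, f₁, Fin r, G₁, δ₁⟩ M u v ∧ Modif n u (M.f ⁻¹' I.Z) ∧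
      (∀ l, IsConnected (G₁ l)) ∧ (∀ l, δ₁ l = 1 ∨ δ₁ l = 0 ∨ ∃ l', δ₁ l = M.δ l') ∧
      (∀ x, x ∈ off G₁ ↔ u x ∈ off M.G ∧ M.f (u x) ∉ I.Z) ∧
      (∀ x, M.f (u x) ∉ I.Z → ∀ k, x ∈ G₁ k → ∃ l, ∀ᶠ z in 𝓝 x, z ∈ G₁ k ↔ u z ∈ M.G l) ∧
      (M.X.Kah → X₁.Kah) ∧ (M.X.Prj → X₁.Prj) := by
  obtain ⟨R, f₁, h1, h2, h3⟩ := core hL hM hv hl
  obtain ⟨δ₁, a1, a2, a3⟩ := coef n M.X R.V₁ R.w M.κ _ M.G M.δ R.G₁ R.md.hol hM.snc R.snc R.conn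
    hM.bdry fun x hx => ⟨((R.off x).1 hx).1, R.md.imm ((R.off x).1 hx).2⟩
  exact ⟨R.V₁, f₁, R.r, R.G₁, δ₁, R.w, ⟨h2, h3, R.snc, a1⟩, ⟨⟨_, R.md⟩, ⟨_, hv⟩, h1, a3⟩, R.md, R.conn,
    a2, R.off, R.old, R.kah, R.prj⟩

/-- the components with the coefficient one stay vertical -/
theorem vert {M₁ M : Fb n p} {u : M₁.X.X → M.X.X} {v : M₁.Y.X → M.Y.X} (h₁ : M₁.Ok) (h : M.Ok)
    (hs : M₁.Sq M u v) (hc : ∀ l, IsConnected (M₁.G l)) {Q : Set M₁.Y.X} (hQ : Thin p Q)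
    (hi : ∀ x, M₁.f x ∉ Q → Imm n n u x)
    (hV : ∀ l, M.δ l = 1 → ∃ S, Thin p S ∧ M.f '' M.G l ⊆ S) (l : M₁.κ) (hl : M₁.δ l = 1) :
    ∃ S, Thin p S ∧ M₁.f '' M₁.G l ⊆ S := by
  obtain ⟨B, hu⟩ := hs.mu
  obtain ⟨B', hv⟩ := hs.mv
  rcases genc n _ _ u _ _ _ _ _ _ hu.hol h.snc h₁.snc hc hs.log l with a | ⟨-, a | ⟨l', a, b⟩⟩
  · exact ⟨Q, hQ, by rintro _ ⟨x, hx, rfl⟩; exact by_contra fun k => a.1 x hx (hi x k)⟩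
  · exact absurd (hl.symm.trans a.2) one_ne_zero
  · obtain ⟨S, c, d⟩ := hV l' (b.symm.trans hl)
    exact ⟨_, hv.pre_thin c, by rintro _ ⟨x, hx, rfl⟩; exact d ⟨_, a x hx, hs.comm x⟩⟩

end Vale.Agent.P281Z.Nt
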