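import Vale.Agent.P281Z.Nt.Conv
import Vale.Agent.P281Z.Nt.Hyp
import Vale.Agent.P281.H511.Gen.Prime

/-!
# P281, translation of boundaries between the two languages
-/

open scoped Manifold ContDiff Topology
open Set Filter Function
open Vale.Agent.P272.K Vale.Agent.P281
open Vale.Agent.P277Z (Hol at_chart)
open Vale.Agent.P277Z.Slc (Ind LEq Snc dd dd_congr dd_mul)

noncomputable section

namespace Vale.Agent.P281Z.Nt.Cio

theorem cin : CIN := by
  intro n p X Y _ _ _ _ f Δ h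
  have := h.manifold.1
  have := h.manifold.2
  refine ⟨⟨h.connected, ⟨h.hol, fun y => (h.fibres y).nonempty, ∅, thin_empty,
    fun y _ => h.fibres y⟩, snc_snc h.snc, fun l => (h.snc.2.2.1 l.1).choose_spec.2⟩,
    fun l => ?_, fun l => (h.snc.2.2.1 l.1).choose_spec.1, fun D hD => ⟨⟨D, hD⟩, rfl⟩⟩
  have k := (h.snc.2.1 l.1 l.2).2.2
  rwa [show {x | x ∈ l.1 ∧ ∃ g, J.IsLocalEq (Cm n) l.1 g x ∧ J.dif (Cm n) g x ≠ 0} = l.1 from
    ext fun x => and_iff_left_of_imp fun hx =>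
      (snc_hy h.snc l.2 x).imp fun _ k => ⟨isLocalEq_of_leq k, leq_dif k hx⟩] at k

theorem csnc : CSNC := by
  intro n V κ _ G Γ hG h y g hg
  choose L hL using fun D : {D // Γ D ≠ 0 ∧ y ∈ D} => h D D.2.1
  have : Finite {D // Γ D ≠ 0 ∧ y ∈ D} :=
    .of_injective L fun D D' e => Subtype.ext (by rw [hL D, hL D', e])
  obtain ⟨ζ, h1, h2⟩ := hG y
  have h3 : ∀ D, y ∈ G (L D) := fun D => hL D ▸ D.2.2
  have h4 : ∀ D, LEq n (G (L D)) y (g D) := fun D =>
    have k : J.IsLocalEq (Cm n) (G (L D)) (g D) y := hL D ▸ hg D D.2.1 D.2.2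
    leq_of_loc k fun hy => H511.Gen.dif_ne_of_mem_sm
      ⟨hy, _, isLocalEq_of_leq (h1 _), leq_dif (h1 _) hy⟩ k
  choose u u1 u2 u3 using fun D => Nt.leq_unit (h1 (L D)) (h4 D)
  refine (ind_iff fun D => (h4 D).hol).1 ⟨fun D => (h4 D).hol, fun e he => ?_⟩
  have k := ((h2.2 e he).comp (fun D => ⟨L D, h3 D⟩) fun D D' e => Subtype.ext (by
    rw [hL D, hL D', show L D = L D' from congrArg Subtype.val e])).units_smul
      fun D => Units.mk0 (u D y) (u2 D)
  exact (congrArg (fun v => LinearIndependent ℂ v) (funext fun D => ((dd_congr (u3 D) he).trans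
    (dd_mul (u1 D) (h1 _).hol ((h1 _).mem.2 (h3 D)) he)).symm)).mp k

open Classical in
theorem cout : COUT := by
  intro n p M hM hc
  have := hM.conn
  have h1 : ∀ l l', M.G l = M.G l' → l = l' := fun l l' e => by
    obtain ⟨x, hx⟩ := (hc l).nonempty
    obtain ⟨y, a, b⟩ := (Hp.genp hM.snc hx).exists
    exact not_not.1 fun k => b l' (Ne.symm k) (e ▸ a)
  have h2 : ∀ D, (if h : ∃ l, D = M.G l then (M.δ h.choose : ℝ) else 0) ≠ 0 → ∃ l, D = M.G l :=
    fun D k => by_contra fun a => k (dif_neg a)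
  refine ⟨fun D => if h : ∃ l, D = M.G l then M.δ h.choose else 0, ⟨hc, fun l => ?_, h2⟩,
    ⟨inferInstance, inferInstance⟩, inferInstance, this, ⟨inferInstance, inferInstance⟩,
    hM.fibn.hol, hM.fibn.conn_all, (finite_range M.G).subset fun D k => (h2 D k).imp fun _ =>
      Eq.symm, fun D k => ?_, fun D => ?_, csnc n M.X M.κ M.G _ hM.snc h2⟩
  · have h : ∃ l', M.G l = M.G l' := ⟨l, rfl⟩
    rw [dif_pos h, ← h1 l _ h.choose_spec]
  · obtain ⟨l, rfl⟩ := h2 D k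
    exact isPrime_of_hy (fun x => (hM.snc x).elim fun ζ a => ⟨ζ l, a.1 l⟩) (hc l)
  · beta_reduce
    split_ifs with h
    exacts [⟨_, rfl, hM.bdry _⟩, ⟨0, by simp, le_rfl, zero_le_one⟩]

end Vale.Agent.P281Z.Nt.Cio
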