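import Vale.Agent.P281Z.Nt.Conv
import Vale.Agent.P281.H511.Gen.Prime

/-!
# P281, translation of fibrations and boundaries
-/

open scoped Manifold ContDiff Topology
open Set Filter Function
open Vale.Agent.P272.K Vale.Agent.P281
open Vale.Agent.P277Z (Hol at_chart)
open Vale.Agent.P277Z.Slc (Ind LEq Snc dd)

noncomputable section

namespace Vale.Agent.P281Z.Nt

variable {n : ℕ} {X : Type} [TopologicalSpace X] [ChartedSpace (Cm n) X]
  [IsManifold 𝓘(ℂ, Cm n) ω X] {x : X} {g ζ : X → ℂ} {D : Set X}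

/-- reduced equations of a smooth hypersurface -/
theorem leq_of_leq (h : LEq n D x ζ) (hg : J.IsLocalEq (Cm n) D g x) : LEq n D x g :=
  leq_of_loc hg fun hx =>
    H511.Gen.dif_ne_of_mem_sm ⟨hx, ζ, isLocalEq_of_leq h, leq_dif h hx⟩ hg

theorem cin : CIN := fun n p X Y _ _ _ _ f Δ h => by
  have := h.manifold.1
  have := h.manifold.2
  refine ⟨⟨h.connected, Fibn.of_all (X := (fbOf h).X.X) (Y := (fbOf h).Y.X) h.hol h.fibres,
    snc_snc h.snc, fun l => (h.snc.2.2.1 l.1).choose_spec.2⟩, fun l => ?_,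
    fun l => (h.snc.2.2.1 l.1).choose_spec.1, fun D hD => ⟨⟨D, hD⟩, rfl⟩⟩
  have h1 := (h.snc.2.1 l.1 l.2).2.2
  rwa [show {x | x ∈ l.1 ∧ ∃ g, J.IsLocalEq (Cm n) l.1 g x ∧ J.dif (Cm n) g x ≠ 0} = l.1 from
    ext fun x => and_iff_left_of_imp fun hx =>
      (snc_hy h.snc l.2 x).imp fun _ k => ⟨isLocalEq_of_leq k, leq_dif k hx⟩] at h1

theorem csnc : CSNC := fun n V κ _ G Γ hG h y g hg => by
  choose l hl using fun D : {D // Γ D ≠ 0 ∧ y ∈ D} => h D D.2.1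
  obtain ⟨ζ, h1, h2⟩ := hG y
  have : Finite {D // Γ D ≠ 0 ∧ y ∈ D} := ((finite_range G).subset
    fun D (k : Γ D ≠ 0 ∧ y ∈ D) => (h D k.1).imp fun _ => Eq.symm).to_subtype
  have h3 : ∀ D : {D // Γ D ≠ 0 ∧ y ∈ D}, LEq n D.1 y (ζ (l D)) := fun D =>
    (congrArg (fun S => LEq n S y (ζ (l D))) (hl D)).mpr (h1 _)
  choose u h4 h5 h6 using fun D : {D // Γ D ≠ 0 ∧ y ∈ D} =>
    leq_unit (h3 D) (leq_of_leq (h3 D) (hg D D.2.1 D.2.2))
  have h7 := h2.comp (fun D : {D // Γ D ≠ 0 ∧ y ∈ D} => ⟨l D, hl D ▸ D.2.2⟩)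
    fun D D' k => Subtype.ext ((hl D).trans ((congrArg (fun a => G a.1) k).trans (hl D').symm))
  refine (ind_iff fun D => loc_hol (hg _ D.2.1 D.2.2)).1
    ⟨fun D => loc_hol (hg _ D.2.1 D.2.2), fun e he => ?_⟩
  have h8 := (h7.2 e he).units_smul fun D => Units.mk0 (u D y) (h5 D)
  rwa [show (fun D : {D // Γ D ≠ 0 ∧ y ∈ D} => dd (g D) e y) = _ from funext fun D =>
    (P277Z.Slc.dd_congr (h6 D) he).trans
      (P277Z.Slc.dd_mul (h4 D) (h3 D).hol ((h3 D).mem.2 D.2.2) he)]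

theorem cout_of (hG : GENP) : COUT := fun n p M hM hc => by
  have inj : Injective M.G := fun l k e => by
    by_contra h
    obtain ⟨x, hx⟩ := (hc l).1
    obtain ⟨y, h1, h2⟩ := (hG n M.X M.κ M.G hM.snc l x hx).exists
    exact h2 k (Ne.symm h) (e ▸ h1)
  have hv : ∀ l, extend M.G (fun l => (M.δ l : ℝ)) 0 (M.G l) = M.δ l := inj.extend_apply _ _
  have hs : ∀ D, extend M.G (fun l => (M.δ l : ℝ)) 0 D ≠ 0 → ∃ l, D = M.G l := fun D h => by
    by_contra k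
    exact h (extend_apply' _ _ _ fun ⟨l, e⟩ => k ⟨l, e.symm⟩)
  have := hM.conn
  refine ⟨_, ⟨hc, hv, hs⟩, ⟨inferInstance, inferInstance⟩, inferInstance, hM.conn,
    ⟨inferInstance, inferInstance⟩, hM.fibn.hol, hM.fibn.conn_all,
    (finite_range M.G).subset fun D h => (hs D h).imp fun _ => Eq.symm, fun D h => ?_,
    fun D => ?_, csnc n M.X M.κ M.G _ hM.snc hs⟩
  · obtain ⟨l, rfl⟩ := hs D h
    exact isPrime_of_hy (fun x => (hM.snc x).elim fun ζ k => ⟨ζ l, k.1 l⟩) (hc l)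
  · by_cases h : extend M.G (fun l => (M.δ l : ℝ)) 0 D = 0
    · exact ⟨0, by simpa using h, le_rfl, zero_le_one⟩
    · obtain ⟨l, rfl⟩ := hs D h
      exact ⟨_, hv l, hM.bdry l⟩

end Vale.Agent.P281Z.Nt
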