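import Vale.Agent.P281Z.Nt.Conv
import Vale.Agent.P281Z.Nt.Hyp
import Vale.Agent.P281.H399.Gen.Base
import Vale.Agent.P281.H303.Gen.Irr

/-!
# P281, block NEAT: the orbifold base of a neat model, mild exceptional divisors
-/

open scoped Manifold ContDiff Topology
open Set Filter Function
open Vale.Agent.P272.K (Cm Chart At)
open Vale.Agent.P281
open Vale.Agent.P281.J (HolAt dif IsLocalEq IsPrime)
open Vale.Agent.P281.H511.Gen (sm)
open Vale.Agent.P277Z (Hol at_chart)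
open Vale.Agent.P277Z.Slc (Ind LEq Snc dd ind_iff_surj)

set_option linter.unusedSectionVars false

noncomputable section

namespace Vale.Agent.P281Z.Nt

namespace Ml

variable {n p : ℕ} {X Y : Type} [TopologicalSpace X] [ChartedSpace (Cm n) X] [TopologicalSpace Y]
  [ChartedSpace (Cm p) Y] [IsManifold 𝓘(ℂ, Cm n) ω X] [IsManifold 𝓘(ℂ, Cm p) ω Y]

theorem hy_of_snc {κ : Type} {G : κ → Set X} (h : Snc n G) (l : κ) : Hy n (G l) := fun x =>
  let ⟨ζ, h1, _⟩ := h x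
  ⟨ζ l, h1 l⟩

/-- a prime divisor which is no component has a smooth point off the components -/
theorem exists_off {κ : Type} [Finite κ] {G : κ → Set X} (h : Snc n G)
    (hc : ∀ l, IsConnected (G l)) {D : Set X} (hD : IsPrime (Cm n) D) (hne : ∀ l, D ≠ G l) :
    ∃ x ∈ sm n D, x ∈ off G := by
  have hp : ∀ l, IsPrime (Cm n) (G l) := fun l => isPrime_of_hy (hy_of_snc h l) (hc l)
  have ha : ∀ A ∈ range G, H64.Gen.IsAnalyticSet (Cm n) A := by
    rintro _ ⟨l, rfl⟩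
    exact H511.Gen.isAnalyticSet_prime (hp l)
  have hnot : ¬ D ⊆ ⋃₀ range G := fun hs => by
    obtain ⟨_, ⟨l, rfl⟩, hl⟩ := H511.Gen.exists_subset_of_subset_sUnion hD (toFinite _) ha hs
    exact hne l (H511.Gen.prime_eq_of_subset hD (hp l) hl)
  obtain ⟨y, hy⟩ := hD.2.2.nonempty
  obtain ⟨x, h1, h2⟩ := closure_nonempty_iff.1 ⟨y, H511.Gen.subset_closure_diff hD
    (H511.Gen.isAnalyticSet_sUnion (toFinite _) ha) hnot hy.1⟩
  exact ⟨x, h1, fun l hl => h2 ⟨G l, ⟨l, rfl⟩, hl⟩⟩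

/-- a hypersurface on which the rank is large is not mapped into two transversal hypersurfaces -/
theorem not_two {f : X → Y} (hf : HolM n p f) {D : Set X} {x : X} (hx : x ∈ D) (h : NE n p f D x)
    {a : Bool → Y → ℂ} (ha : Ind p a (f x)) (h0 : ∀ b, ∀ᶠ y in 𝓝 x, y ∈ D → a b (f y) = 0) :
    False := by
  obtain ⟨ζ, e, e', hζ, he, he', hr⟩ := h
  choose c hc hc' using fun b => Hp.div hζ (hf.hol (ha.1 b)) (h0 b)
  have k : ∀ b v, dd (a b) e' (f x) (df f e e' x v) = c b x * dd ζ e x v := fun b v => by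
    have e1 := dd_comp (ha.1 b) (hf.at x) he he'
    rw [P277Z.Slc.dd_congr (hc' b) he, P277Z.Slc.dd_mul (hc b) hζ.hol (hζ.mem.2 hx) he] at e1
    exact (congrArg (fun L : Cm n →L[ℂ] ℂ => L v) e1).symm
  set L : ℂ × Cm p →ₗ[ℂ] (Bool → ℂ) := LinearMap.pi fun b =>
    (dd (a b) e' (f x) : Cm p →ₗ[ℂ] ℂ).comp (LinearMap.snd ℂ ℂ (Cm p)) -
      c b x • LinearMap.fst ℂ ℂ (Cm p) with hL
  have h1 : LinearMap.range L = ⊤ := LinearMap.range_eq_top.2 fun t => by
    obtain ⟨w, hw⟩ := (ind_iff_surj _).1 (ha.2 e' he') t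
    exact ⟨(0, w), funext fun b => by simpa [hL] using congrFun hw b⟩
  have h2 : LinearMap.range ((dd ζ e x).prod (df f e e' x) : Cm n →ₗ[ℂ] ℂ × Cm p) ≤
      LinearMap.ker L := by
    rintro _ ⟨v, rfl⟩
    exact funext fun b => by simpa [hL, sub_eq_zero] using k b v
  have h3 := LinearMap.finrank_range_add_finrank_ker L
  have h4 := Submodule.finrank_mono h2
  rw [h1, finrank_top] at h3
  simp only [Module.finrank_fintype_fun_eq_card, Fintype.card_bool, Module.finrank_prod,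
    Module.finrank_self, Fintype.card_fin] at h3
  omega

end Ml

open Ml

theorem cbase_of (hR : REM) (hO : REGO) : CBASE := by
  intro n p M₀ N Δ hG hΔ Γ hΓ
  have hP := H399.Gen.isPrime_of hΓ
  have hf := N.ok.fibn.hol
  have hc := N.ok.conn
  by_contra hne
  obtain ⟨y, hy, hyE⟩ := exists_off N.snc hG.connE hP fun j k => hne ⟨j, k⟩
  obtain ⟨x₀, rfl⟩ := N.ok.fibn.surj y
  have hreg := (hG.reg _ hyE).1
  obtain ⟨x, hxG, hx⟩ := (hO n p N.X N.Y N.f N.κ N.G x₀ hf N.ok.snc hreg).2.exists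
  rw [← hx] at hy hreg
  have hs := (hO n p N.X N.Y N.f N.κ N.G x hf N.ok.snc hreg).1
  obtain ⟨hyΓ, g, hg, hdg⟩ := id hy
  have hl := hs.leq (hf.at x) (leq_of_loc hg fun _ => hdg)
  have hex : ∃ z, N.f z ∉ Γ := by
    obtain ⟨z, hz⟩ := ((prime_thin hP).freq (N.f x)).exists
    obtain ⟨z, rfl⟩ := N.ok.fibn.surj z
    exact ⟨z, hz⟩
  obtain ⟨P, hPp, hPs, hPe⟩ := H303.Gen.irr n N.X.X (N.f ⁻¹' Γ) (hP.1.preimage hf.cont)
    (H511.Gen.isHyp_preimage hf hP.2.1 (H511.Gen.not_eventually_preimage hf hP.2.1 hex)) x _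
    (hol_iff.1 hl.hol) (hl.mem.2 hyΓ) (leq_dif hl hyΓ) (hl.1.mono fun _ k => k.symm)
  have hxP : x ∈ P := (loc_mem hPe).1 (hl.mem.2 hyΓ)
  have hA := hR n p N.X N.Y N.f P hf (prime_an hPp)
  have him : closure (N.f '' P) = Γ := by
    rw [hA.closed.closure_eq]
    refine Subset.antisymm (image_subset_iff.2 hPs)
      (H511.Gen.subset_of_eventually hP (isAnalyticSet_of_an hA) hy ?_)
    filter_upwards [hs.ev (hf.at x) ((loc_ev hPe).and hl.1)] with z hz hzΓ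
    obtain ⟨w, ⟨k1, k2⟩, rfl⟩ := hz
    exact mem_image_of_mem _ (k1.1 (k2.2 hzΓ))
  have h0 : Δ P = 0 := by
    by_contra k
    obtain ⟨l, rfl⟩ := hΔ.supp P k
    exact hxG l hxP
  have h1 : 1 ∈ H399.Gen.mulSet n p N.f P Γ :=
    ⟨x, hxP, _, g, fun _ => 1, hPe, hg, contMDiffAt_const, one_ne_zero, .of_forall fun z => by simp⟩
  apply hΓ
  rw [H399.Gen.base_of hP]
  apply H964.coef_zero
  refine le_trans (iInf₂_le P ⟨hPp, him⟩) ?_
  rw [h0, ENNReal.ofReal_zero, tsub_zero, inv_one, mul_one]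
  exact_mod_cast Nat.sInf_le h1

theorem cmild_of (hS : CSNC) : CMILD := by
  intro n p M₀ N Δ hG hΔ hB hb D hD
  refine Or.inr (Or.inr ⟨⟨univ, isOpen_univ, subset_univ _, fun y _ =>
    hS p N.Y (Fin N.r) N.E _ N.snc hb y⟩, ?_⟩)
  by_cases hl : ∃ l, D = N.G l
  swap
  · obtain ⟨x, hx, hxG⟩ := exists_off N.ok.snc hG.connG hD fun l k => hl ⟨l, k⟩
    refine Or.inl fun Γ hΓ => ?_
    obtain ⟨j, rfl⟩ := hb Γ hΓ.1
    exact absurd (hΓ.2 (mem_image_of_mem _ hx.1)) (N.pre x hxG j)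
  obtain ⟨l, rfl⟩ := hl
  by_cases hi : ∃ x ∈ N.G l, Imm n n N.u x
  · obtain ⟨x, hx, hne⟩ : ∃ x ∈ N.G l, NE n p N.f (N.G l) x := by
      by_contra k
      exact hB l ⟨hi, fun x hx h => k ⟨x, hx, h⟩⟩
    refine Or.inl fun Γ hΓ Γ' hΓ' => ?_
    obtain ⟨j, rfl⟩ := hb Γ hΓ.1
    obtain ⟨j', rfl⟩ := hb Γ' hΓ'.1
    by_contra hjj
    obtain ⟨ζ, h1, h2⟩ := N.snc (N.f x)
    have m : ∀ b : Bool, N.f '' N.G l ⊆ N.E (if b then j else j') := fun b => by
      cases b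
      exacts [hΓ'.2, hΓ.2]
    refine not_two N.ok.fibn.hol hx hne (h2.comp
      (fun b : Bool => ⟨if b then j else j', m b (mem_image_of_mem _ hx)⟩) ?_) fun b => ?_
    · rintro (_ | _) (_ | _) k
      · rfl
      · exact absurd (congrArg (fun i => N.E i.1) k).symm hjj
      · exact absurd (congrArg (fun i => N.E i.1) k) hjj
      · rfl
    · filter_upwards [N.ok.fibn.hol.cont.continuousAt.eventually (h1 (if b then j else j')).1]
        with y k hy using k.2 (m b (mem_image_of_mem _ hy))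
  · obtain ⟨x₀, hx₀⟩ := (hG.connG l).nonempty
    obtain ⟨x, hx, hx'⟩ := (Hp.genp N.ok.snc hx₀).exists
    obtain ⟨k, h1, h2⟩ := N.sq.log.exc x fun h => hi ⟨x, hx, h⟩
    obtain rfl : k = l := by
      by_contra c
      exact hx' k c h2
    refine Or.inr (Or.inr ?_)
    rw [hΔ.val, h1, Rat.cast_one, sub_self]
    refine finsum_nonneg fun G => finsum_nonneg fun _ => mul_nonneg (Nat.cast_nonneg _) ?_
    by_cases hP : IsPrime (Cm p) G
    · rw [H399.Gen.base_of hP]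
      exact sub_nonneg.2 (H964.coef_le_one _)
    · rw [H399.Gen.base_not hP]
      norm_num

end Vale.Agent.P281Z.Nt
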