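import Vale.Agent.P281Z.Nt.Conv
import Vale.Agent.P281Z.Nt.Hyp
import Vale.Agent.P281Z.Md.Exc
import Vale.Agent.P281.H511.Gen.Prime

/-!
# P281, block NEAT: a log model is a step
-/

open scoped Manifold ContDiff Topology
open Set Filter Function
open Vale.Agent.P272.K Vale.Agent.P281
open Vale.Agent.P281.J (HolAt dif IsLocalEq IsPrime IsSNC)
open Vale.Agent.P281.H713.TZ.S (OrbMor)
open Vale.Agent.P281.H511.Gen (prime_eq_of_subset exists_subset_of_subset_sUnion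
  isAnalyticSet_prime)
open Vale.Agent.P277Z (Hol at_chart hol_const)
open Vale.Agent.P277Z.Slc (Ind LEq Snc dd dd_congr dd_mul isClosed_of_leq)

noncomputable section

namespace Vale.Agent.P281Z.Nt

namespace StepH

section

variable {n : ℕ} {X X₁ : Type} [TopologicalSpace X] [ChartedSpace (Cm n) X]
  [IsManifold 𝓘(ℂ, Cm n) ω X] [TopologicalSpace X₁] [ChartedSpace (Cm n) X₁]
  [IsManifold 𝓘(ℂ, Cm n) ω X₁]

/-- a smooth hypersurface which contains another one is equal to it -/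
theorem sub_of_sub {H D : Set X} {x : X} {e ζ : X → ℂ} (hH : LEq n H x e) (hD : LEq n D x ζ)
    (hx : x ∈ H) (h : ∀ᶠ y in 𝓝 x, y ∈ H → y ∈ D) : ∀ᶠ y in 𝓝 x, y ∈ D → y ∈ H := by
  obtain ⟨c, hc, h1⟩ := Hp.div hH hD.hol ((h.and hD.1).mono fun y hy k => hy.2.2 (hy.1 k))
  have he := at_chart (n := n) x
  have h0 : c x ≠ 0 := fun k => (hD.2 _ he).2 (hD.mem.2 (h.self_of_nhds hx)) (by
    have := (dd_congr h1 he).trans (dd_mul hc hH.hol (hH.mem.2 hx) he)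
    rw [k] at this
    exact this.trans (by ext w; simp))
  filter_upwards [h1, hH.1, hD.1, hc.ne_near h0] with y a1 a2 a3 a4 k
  exact a2.1 ((mul_eq_zero.1 (a1 ▸ a3.2 k)).resolve_left a4)

theorem hy {κ : Type} {G : κ → Set X} (h : Snc n G) (l : κ) : Hy n (G l) := fun x =>
  let ⟨ζ, k, _⟩ := h x
  ⟨ζ l, k l⟩

/-- a removable set contains no prime divisor -/
theorem not_sub {N P : Set X} (hN : Md.Har n N) (hP : IsPrime (Cm n) P) : ¬ P ⊆ N := by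
  intro h
  obtain ⟨x, hx, g, hg, -⟩ := hP.2.2.nonempty
  obtain ⟨U, h1, h2, h3⟩ := eventually_nhds_iff.1 (loc_near hg)
  obtain ⟨s, h4, h5⟩ := hN.ext U (fun y => 1 / g y) h2 fun y hy k =>
    (hol_const 1 y).div (loc_hol (h1 y hy)) fun k' => k (h ((loc_mem (h1 y hy)).1 k'))
  have h6 : ∀ᶠ y in 𝓝 x, s y * g y ≠ 1 :=
    ((h4 x h3).continuousAt.mul (loc_hol hg).continuousAt).eventually_ne (by
      rw [Pi.mul_apply, (loc_mem hg).2 hx, mul_zero]; exact zero_ne_one)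
  obtain ⟨y, ⟨a1, a2⟩, a3⟩ := ((h6.and (h2.mem_nhds h3)).and_frequently
    (mem_closure_iff_frequently.1 (hN.dense x))).exists
  exact a1 (by
    rw [h5 y a2 a3, one_div_mul_cancel fun k' => a3 (h ((loc_mem (h1 y a2)).1 k'))])

/-- a hypersurface through a point where `u` is an isomorphism is mapped into one component only -/
theorem eq_of_imm {κ : Type} [Fintype κ] {G : κ → Set X} (hG : Snc n G) {u : X₁ → X}
    (hu : HolM n n u) {D : Set X₁} (hD : Hy n D) {x : X₁} (hx : x ∈ D) (hi : Imm n n u x)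
    {l l' : κ} (h : ∀ y ∈ D, u y ∈ G l) (h' : ∀ y ∈ D, u y ∈ G l') : l' = l := by
  by_contra hne
  obtain ⟨ζ, hζ⟩ := hD x
  obtain ⟨η, hη⟩ := hy hG l (u x)
  have hs := imm_iff_sbm.1 hi
  have h1 := sub_of_sub hζ (hs.leq (hu.at x) hη) hx (.of_forall h)
  obtain ⟨z, ⟨a1, a2⟩, y, a3, rfl⟩ :=
    ((Hp.genp hG (h x hx)).and_eventually (hs.ev (hu.at x) h1)).exists
  exact a2 l' hne (h' y (a3 a1))

end

variable {n p : ℕ} {M₁ M : Fb n p} {Δ₁ : Set M₁.X.X → ℝ} {Δ : Set M.X.X → ℝ}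
  {u : M₁.X.X → M.X.X} {v : M₁.Y.X → M.Y.X}

theorem prime (k : M.Ok) (r : Rep M Δ) (l : M.κ) : IsPrime (Cm n) (M.G l) :=
  isPrime_of_hy (hy k.snc l) (r.conn l)

theorem push (hG : GENC) (k : M.Ok) (k₁ : M₁.Ok) (r : Rep M Δ) (r₁ : Rep M₁ Δ₁)
    (s : M₁.Sq M u v) (D : Set M₁.X.X) (hD : IsPrime (Cm n) D) (hD' : IsPrime (Cm n) (u '' D)) :
    Δ₁ D = Δ (u '' D) := by
  obtain ⟨B, hB⟩ := s.mu
  by_cases h : ∃ l, D = M₁.G l
  · obtain ⟨l, rfl⟩ := h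
    rw [r₁.val]
    rcases hG n M.X M₁.X u _ _ M.G M.δ M₁.G M₁.δ hB.2.hol k.snc k₁.snc r₁.conn s.log l with
      ⟨h1, -⟩ | ⟨-, ⟨⟨x, h1, h2⟩, h3⟩ | ⟨l', h1, h2⟩⟩
    · exact absurd (image_mono h1) (not_sub (Md.exc n _ _ u (Md.wm_of hB)) hD')
    · rw [h3, Rat.cast_zero]
      by_contra hne
      obtain ⟨l', e⟩ := r.supp _ (Ne.symm hne)
      exact h2 l' (e ▸ mem_image_of_mem u h1)
    · rw [prime_eq_of_subset hD' (prime k r l') (image_subset_iff.2 h1), r.val, h2]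
  · have h0 : Δ₁ D = 0 := by_contra fun hne => h (r₁.supp D hne)
    rw [h0]
    by_contra hne
    obtain ⟨l', e⟩ := r.supp _ (Ne.symm hne)
    obtain ⟨_, ⟨l, rfl⟩, h1⟩ := exists_subset_of_subset_sUnion (𝒜 := range M₁.G) hD
      (finite_range _) (by rintro _ ⟨l, rfl⟩; exact isAnalyticSet_prime (prime k₁ r₁ l))
      fun x hx => by
        by_contra hc
        exact s.log.sub x (fun l hl => hc ⟨_, ⟨l, rfl⟩, hl⟩) l' (e ▸ mem_image_of_mem u hx)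
    exact h ⟨l, prime_eq_of_subset hD (prime k₁ r₁ l) h1⟩

theorem orb (hG : GENC) (k : M.Ok) (k₁ : M₁.Ok) (r : Rep M Δ) (r₁ : Rep M₁ Δ₁)
    (c₁ : IsSNC (Cm n) Δ₁) (s : M₁.Sq M u v) : OrbMor (Cm n) (Cm n) u Δ₁ Δ := by
  classical
  intro z G' g e w m h0 hg he hz hd _ _ hm hev
  obtain ⟨B, hB⟩ := s.mu
  have hu := hB.2.hol
  obtain ⟨l', rfl⟩ := r.supp _ h0
  have hH : LEq n {x | e x = 0} z e :=
    leq_of_loc (H511.Gen.isLocalEq_of he hd (.of_forall fun _ => Iff.rfl)) fun _ => hd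
  have h1 : ∀ᶠ y in 𝓝 z, y ∈ {x | e x = 0} → u y ∈ M.G l' := by
    filter_upwards [hev, hu.cont.continuousAt.eventually (loc_ev hg)] with y a1 a2 a3
    exact a2.1 (by rw [a1, show e y = 0 from a3, zero_pow hm.ne', zero_mul])
  have hc : ∀ l, IsClosed (M₁.G l) := fun l => isClosed_of_leq (hy k₁.snc l)
  have h2 := Hp.cov hc (D := {x | e x = 0}) hz (h1.mono fun y a1 a2 => by
    by_contra hne
    exact s.log.sub y (fun l hl => hne ⟨l, hl⟩) l' (a1 a2))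
  obtain ⟨l, h3⟩ := frequently_exists.1 (h2.mono fun y hy => exists_and_left.2 hy)
  have hzl : z ∈ M₁.G l := (hc l).mem_of_frequently_of_tendsto
    (h3.mono fun y hy => hy.2.self_of_nhds hy.1) tendsto_id
  obtain ⟨y, ⟨a1, a2⟩, a3, a4⟩ := (h3.and_eventually (hH.near.and h1.eventually_nhds)).exists
  obtain ⟨ζ, hζ⟩ := hy k₁.snc l y
  have h4 : M₁.G l ⊆ u ⁻¹' M.G l' :=
    Hp.idh (r₁.conn l).isPreconnected (hy k₁.snc l) ((prime_an (prime k r l')).pre hu)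
      (a2.self_of_nhds a1) (((sub_of_sub a3 hζ a1 a2).and a4).mono fun x hx b => hx.2 (hx.1 b))
  have h5 : (M.δ l' : ℝ) ≤ M₁.δ l := by
    rcases hG n M.X M₁.X u _ _ M.G M.δ M₁.G M₁.δ hu k.snc k₁.snc r₁.conn s.log l with
      ⟨-, b⟩ | ⟨⟨x, b1, b2⟩, ⟨⟨x', b3, b4⟩, -⟩ | ⟨l'', b3, b4⟩⟩
    · rw [b]; exact_mod_cast (k.bdry l').2
    · exact absurd (h4 b3) (b4 l')
    · rw [b4, eq_of_imm k.snc hu (hy k₁.snc l) b1 b2 h4 b3]
  have h6 : Δ₁ (M₁.G l) ≤ ∑ᶠ (D : Set M₁.X.X) (_ : z ∈ D), Δ₁ D := by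
    have := single_le_finsum (M₁.G l) (f := fun D => ∑ᶠ _ : z ∈ D, Δ₁ D)
      (c₁.1.subset fun D hD k' => hD (by simp [k'])) fun D => finsum_nonneg fun _ => by
        obtain ⟨q, b1, b2, -⟩ := c₁.2.2.1 D
        rw [b1]; exact_mod_cast b2
    rwa [finsum_eq_if, if_pos hzl] at this
  have h7 : (M.δ l' : ℝ) ≤ 1 := by exact_mod_cast (k.bdry l').2
  have h8 : (1 : ℝ) ≤ m := by exact_mod_cast hm
  rw [r₁.val] at h6
  rw [r.val]
  nlinarith

end StepH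

theorem cstep_of (hG : GENC) : CSTEP := fun _ _ _ _ _ _ u v k k₁ r r₁ c c₁ s =>
  ⟨u, v, s.mu.elim fun _ => isModif_of, s.mv.elim fun _ => isModif_of, s.comm, k.fibn.hol,
    k₁.fibn.hol, c, c₁, StepH.push hG k k₁ r r₁ s, StepH.orb hG k k₁ r r₁ c₁ s⟩

end Vale.Agent.P281Z.Nt
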