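import Vale.Agent.P281Z.Nt.Neat
import Vale.Agent.P281Z.Nt.Cio
import Vale.Agent.P281Z.Nt.Step
import Vale.Agent.P281Z.Nt.Mild

/-!
# P281, block NEAT: models with mild exceptional divisors exist
-/

namespace Vale.Agent.P281Z.Nt

theorem mild : MILD :=
  mild_of neatk Cio.cin Cio.cout (cstep_of genc) (cbase_of rem rego) (cmild_of Cio.csnc)

end Vale.Agent.P281Z.Nt
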