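import Vale.Agent.P281Z.Nt.Sk
import Vale.Agent.P281Z.Top
import Vale.Agent.P281.H303.X.Stat

/-!
# P281, block NEAT: translation to the language of the final statement
-/

open scoped Manifold ContDiff Topology
open Set Filter
open Vale.Agent.P281 Vale.Agent.P281.H713.TZ.S
open Vale.Agent.P281.H511.Surf (IsFibration)
open Vale.Agent.P281.H303.X (MildExc HasMildModel)
open Vale.Agent.P277Z.Slc (LEq Snc)

noncomputable section

namespace Vale.Agent.P281Z.Nt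

/-- `Δ = ∑ δ l • G l` -/
structure Rep {n p : ℕ} (M : Fb n p) (Δ : Set M.X.X → ℝ) : Prop where
  conn : ∀ l, IsConnected (M.G l)
  val : ∀ l, Δ (M.G l) = M.δ l
  supp : ∀ D, Δ D ≠ 0 → ∃ l, D = M.G l

/-- the fibration of the final statement, as a bundled object -/
def fbOf {n p : ℕ} {X Y : Type} [TopologicalSpace X] [ChartedSpace (Cm n) X] [TopologicalSpace Y]
    [ChartedSpace (Cm p) Y] {f : X → Y} {Δ : Set X → ℝ} (h : IsFibration (Cm n) (Cm p) f Δ) :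
    Fb n p where
  X := @Mf.mk n X _ h.hausdorff.1 h.compact _ h.manifold.1
  Y := @Mf.mk p Y _ h.hausdorff.2
    (@Function.Surjective.compactSpace _ _ _ _ f h.hol.continuous h.compact
      fun y => (h.fibres y).nonempty) _ h.manifold.2
  f := f
  κ := {D : Set X | Δ D ≠ 0}
  fin := h.snc.1.fintype
  G := Subtype.val
  δ D := (h.snc.2.2.1 D).choose

/-- **IN** -/
def CIN : Prop :=
  ∀ (n p : ℕ) (X Y : Type) [TopologicalSpace X] [ChartedSpace (Cm n) X] [TopologicalSpace Y]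
    [ChartedSpace (Cm p) Y] (f : X → Y) (Δ : Set X → ℝ) (h : IsFibration (Cm n) (Cm p) f Δ),
    (fbOf h).Ok ∧ Rep (fbOf h) Δ

/-- **OUT** -/
def COUT : Prop := ∀ (n p : ℕ) (M : Fb n p), M.Ok → (∀ l, IsConnected (M.G l)) →
  ∃ Δ, Rep M Δ ∧ IsFibration (Cm n) (Cm p) M.f Δ

/-- boundaries with the support in a divisor with simple normal crossings -/
def CSNC : Prop := ∀ (n : ℕ) (V : Mf n) (κ : Type) [Fintype κ] (G : κ → Set V.X)
  (Γ : Set V.X → ℝ), Snc n G → (∀ D, Γ D ≠ 0 → ∃ l, D = G l) → ∀ y, SNCAt (Cm n) Γ y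

/-- a log model is a step -/
def CSTEP : Prop := ∀ (n p : ℕ) (M₁ M : Fb n p) (Δ₁ : Set M₁.X.X → ℝ) (Δ : Set M.X.X → ℝ) u v,
  M.Ok → M₁.Ok → Rep M Δ → Rep M₁ Δ₁ → J.IsSNC (Cm n) Δ → J.IsSNC (Cm n) Δ₁ → M₁.Sq M u v →
  IsStep (Cm n) (Cm p) M₁.f Δ₁ M.f Δ

/-- the support of the orbifold base -/
def CBASE : Prop := ∀ (n p : ℕ) (M₀ : Fb n p) (N : Md M₀) (Δ : Set N.X.X → ℝ), N.Good →
  Rep N.toFb Δ → ∀ Γ, base (Cm n) (Cm p) N.f Δ Γ ≠ 0 → ∃ j, Γ = N.E j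

/-- the exceptional divisors of a neat model are mild -/
def CMILD : Prop := ∀ (n p : ℕ) (M₀ : Fb n p) (N : Md M₀) (Δ : Set N.X.X → ℝ), N.Good →
  Rep N.toFb Δ → (∀ l, ¬ N.Bad l) → (∀ Γ, base (Cm n) (Cm p) N.f Δ Γ ≠ 0 → ∃ j, Γ = N.E j) →
  MildExc n p N.f Δ

/-- **models with mild exceptional divisors exist** -/
def MILD : Prop :=
  ∀ (n p : ℕ) (X Y : Type) [TopologicalSpace X] [ChartedSpace (Cm n) X] [TopologicalSpace Y]
    [ChartedSpace (Cm p) Y] (f : X → Y) (Δ : Set X → ℝ), IsFibration (Cm n) (Cm p) f Δ →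
    HasMildModel n p f Δ

theorem mild_of (h1 : NEATK) (h2 : CIN) (h3 : COUT) (h4 : CSTEP) (h5 : CBASE) (h6 : CMILD) :
    MILD := by
  intro n p X Y _ _ _ _ f Δ h
  obtain ⟨k1, k2⟩ := h2 n p X Y f Δ h
  obtain ⟨N, a1, a2, -⟩ := h1 n p _ ∅ k1 ⟨fun _ => ⟨1, fun _ _ => 1, fun _ _ _ => analyticAt_const,
    .of_forall fun _ => ⟨fun h => h.elim, fun h => absurd (h 0) one_ne_zero⟩⟩, by simp⟩
  obtain ⟨Δ₁, b1, b2⟩ := h3 n p N.toFb N.ok a1.connG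
  exact ⟨N.X.X, N.Y.X, _, _, _, _, N.f, Δ₁,
    ⟨b2, h4 n p N.toFb (fbOf h) Δ₁ Δ N.u N.v k1 N.ok k2 b1 h.snc b2.snc N.sq⟩,
    h6 n p _ N Δ₁ a1 b1 a2 (h5 n p _ N Δ₁ a1 b1)⟩

end Vale.Agent.P281Z.Nt
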